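import Vale.Agent.P073.H926.MB
import Vale.Agent.P073.ConicalStrata2
import Vale.Agent.P073.H880.Met2
import Vale.Agent.P073.Net.Cube

/-!
# P073, H605: **[MB-U]** product structures of bands with a uniform Lipschitz constant

One product structure on a macroscopic interval `[a, b]` of regular values gives product structures
of all the bands `[t - η, t + η] ⊆ [a', b'] ⊆ (a, b)`, and the moves along the fibres are locally
Lipschitz with ONE constant (independent of `t` and `η`): `exists_mbU`.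
-/

open Set Metric Topology Filter

namespace P073.H605

open P073 P073.TR P073.H936

variable {E : Type*} [NormedAddCommGroup E] [NormedSpace ℝ E]

/-- `r` is a conical retraction of the space onto `C` -/
structure Retr (C : Set E) (r : E → E) : Prop where
  cont : Continuous r
  con : ConicalOn r univ
  mem : ∀ x, r x ∈ C
  fix : ∀ x ∈ C, r x = x

/-- boxes have conical retractions -/
theorem exists_retr_box {n : ℕ} {lo hi : Fin n → ℝ} (h : ∀ i, lo i ≤ hi i) :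
    Retr {x : Fin n → ℝ | ∀ i, lo i ≤ x i ∧ x i ≤ hi i}
      (fun x i => max (lo i) (min (hi i) (x i))) where
  cont := by fun_prop
  con := by
    have hS : ConicalSet (univ : Set (Fin n → ℝ)) := IsOpen.conicalSet isOpen_univ
    have key : ∀ i, ConicalOn (fun x : Fin n → ℝ => max (lo i) (min (hi i) (x i))) univ := by
      intro i
      have h1 : ConicalOn (fun x : Fin n → ℝ => x i) univ := conicalOn_linear (LinearMap.proj i) hS
      have h2 : ConicalOn (fun x : Fin n → ℝ => min (hi i) (x i)) univ :=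
        (conicalOn_const (hi i) hS).rmin h1 (by fun_prop) (by fun_prop)
      exact (conicalOn_const (lo i) hS).rmax h2 (by fun_prop) (by fun_prop)
    intro x hx
    choose r hr hS' H using fun i => key i x hx
    obtain ⟨r₀, hr₀, hle⟩ : ∃ r₀ > 0, ∀ i, r₀ ≤ r i := by
      rcases isEmpty_or_nonempty (Fin n) with hn | hn
      · exact ⟨1, one_pos, fun i => hn.elim i⟩
      · refine ⟨Finset.univ.inf' Finset.univ_nonempty r, ?_, fun i => Finset.inf'_le _ (Finset.mem_univ i)⟩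
        rw [gt_iff_lt, Finset.lt_inf'_iff]
        exact fun i _ => hr i
    refine ⟨r₀, hr₀, fun v hv hxv t ht => ⟨mem_univ _, ?_⟩⟩
    funext i
    exact H i v (hv.trans (hle i)) hxv t ht
  mem := fun x i => ⟨le_max_left _ _, max_le (h i) (min_le_left _ _)⟩
  fix := fun x hx => by
    funext i
    show max (lo i) (min (hi i) (x i)) = x i
    rw [min_eq_right (hx i).2, max_eq_right (hx i).1]

variable {ι : Type*} {C : Set E} {u : E → ℝ} {M : ι → Set E} {t a b : ℝ}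

/-- a locally Lipschitz function on an interval -/
theorem lip_interval {F : Type*} [NormedAddCommGroup F] {φ : ℝ → F} {c d L : ℝ}
    (hφ : ContinuousOn φ (Icc c d))
    (hloc : ∀ s ∈ Icc c d, ∀ᶠ s' in 𝓝[Icc c d] s, ‖φ s' - φ s‖ ≤ L * |s' - s|) :
    ∀ s ∈ Icc c d, ∀ s' ∈ Icc c d, ‖φ s - φ s'‖ ≤ L * |s - s'| := by
  intro s hs s' hs'
  have h4 := P073.H880.dsum_le_of_local (κ := Unit) (convex_Icc c d)
    (w := fun _ z => ‖φ z - φ s'‖) (K := L)
    (fun _ => (hφ.sub continuousOn_const).norm) (fun z hz => by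
      filter_upwards [hloc z hz] with y hy
      rw [P073.H880.dsum, Fintype.sum_unique, Real.dist_eq]
      refine (abs_norm_sub_norm_le _ _).trans ?_
      rw [sub_sub_sub_cancel_right, norm_sub_rev]
      rw [norm_sub_rev] at hy
      exact hy) hs' hs
  rw [P073.H880.dsum, Fintype.sum_unique, Real.dist_eq, sub_self, norm_zero, sub_zero,
    abs_norm] at h4
  exact h4

/-- **the moves along the fibres of a product structure are locally Lipschitz, with a uniform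
constant** -/
theorem exists_unif [FiniteDimensional ℝ E] (P : ProdOn C u M t a b) {r : E → E} (hr : Retr C r)
    (hC : IsCompact C) (hu : ContinuousOn u C) {a' b' : ℝ} (ha : a < a') (hb : b' < b) :
    ∃ L : ℝ, 0 ≤ L ∧
      (∀ x ∈ bnd C u a' b', ∀ᶠ y in 𝓝[C] x, ∀ s ∈ Icc a' b',
        ‖P.G.toFun (P.foot y, s) - P.G.toFun (P.foot x, s)‖ ≤ L * ‖y - x‖) ∧
      ∀ z ∈ lev C u t, ∀ s ∈ Icc a' b', ∀ s' ∈ Icc a' b',
        ‖P.G.toFun (z, s) - P.G.toFun (z, s')‖ ≤ L * |s - s'| := by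
  -- the extension to an open set
  have hur : Continuous (fun x => u (r x)) := hu.comp_continuous hr.cont hr.mem
  set O : Set E := {x | u (r x) ∈ Ioo a b} with hO
  have hOo : IsOpen O := isOpen_Ioo.preimage hur
  set Ω : Set (E × ℝ) := O ×ˢ Ioo a b with hΩ
  have hΩo : IsOpen Ω := hOo.prod isOpen_Ioo
  have hΩc : ConicalSet Ω := hΩo.conicalSet
  set F : E × ℝ → E := fun p => P.G.toFun (P.foot (r p.1), p.2) with hF
  have m1 : MapsTo (fun p : E × ℝ => r p.1) Ω (bnd C u a b) := fun p hp =>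
    ⟨hr.mem _, Ioo_subset_Icc_self hp.1⟩
  have c1 : ContinuousOn (fun p : E × ℝ => r p.1) Ω := (hr.cont.comp continuous_fst).continuousOn
  have k0 : ConicalOn (fun p : E × ℝ => p.1) Ω := conicalOn_linear (LinearMap.fst ℝ E ℝ) hΩc
  have k1 : ConicalOn (fun p : E × ℝ => r p.1) Ω :=
    hr.con.comp k0 (mapsTo_univ _ _) continuous_fst.continuousOn
  have k2 : ConicalOn (fun p : E × ℝ => P.foot (r p.1)) Ω := P.conicalOn_foot.comp k1 m1 c1
  have c2 : ContinuousOn (fun p : E × ℝ => P.foot (r p.1)) Ω := P.continuousOn_foot.comp c1 m1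
  have k3 : ConicalOn (fun p : E × ℝ => (P.foot (r p.1), p.2)) Ω :=
    k2.prodMk (conicalOn_linear (LinearMap.snd ℝ E ℝ) hΩc)
  have c3 : ContinuousOn (fun p : E × ℝ => (P.foot (r p.1), p.2)) Ω :=
    c2.prodMk continuous_snd.continuousOn
  have m3 : MapsTo (fun p : E × ℝ => (P.foot (r p.1), p.2)) Ω (lev C u t ×ˢ Icc a b) :=
    fun p hp => ⟨P.foot_mem (m1 hp), Ioo_subset_Icc_self hp.2⟩
  have kF : ConicalOn F Ω := P.G.conical.comp k3 m3 c3
  have cF : ContinuousOn F Ω := P.G.cont.comp c3 m3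
  -- the uniform constant
  set Kc : Set (E × ℝ) := bnd C u a' b' ×ˢ Icc a' b' with hKc
  have hcomp : IsCompact Kc :=
    (hC.of_isClosed_subset (hu.preimage_isClosed_of_isClosed hC.isClosed isClosed_Icc)
      (fun x hx => hx.1)).prod isCompact_Icc
  have hsub' : Icc a' b' ⊆ Ioo a b := fun s hs => ⟨ha.trans_le hs.1, hs.2.trans_lt hb⟩
  have hKΩ : Kc ⊆ Ω := by
    rintro ⟨x, s⟩ ⟨hx, hs⟩
    refine ⟨?_, hsub' hs⟩
    show u (r x) ∈ Ioo a b
    rw [hr.fix x hx.1]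
    exact hsub' hx.2
  have h1 : ∀ p ∈ Kc, ∃ δ > 0, ∃ L : NNReal, LipschitzOnWith L F (ball p δ) := fun p hp =>
    let ⟨δ, hδ, _, L, hL⟩ := exists_lipschitz_near hΩo kF cF (hKΩ hp)
    ⟨δ, hδ, L, hL⟩
  choose! δ hδ L hL using h1
  obtain ⟨T, hT, hcov⟩ := hcomp.elim_nhds_subcover (fun p => ball p (δ p))
    fun p hp => ball_mem_nhds p (hδ p hp)
  set K : NNReal := ∑ p ∈ T, L p with hK
  have hloc : ∀ p ∈ Kc, ∃ q ∈ T, p ∈ ball q (δ q) ∧ ∀ p₁ ∈ ball q (δ q), ∀ p₂ ∈ ball q (δ q),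
      ‖F p₁ - F p₂‖ ≤ K * ‖p₁ - p₂‖ := by
    intro p hp
    obtain ⟨q, hq, hpq⟩ := mem_iUnion₂.1 (hcov hp)
    refine ⟨q, hq, hpq, fun p₁ h₁ p₂ h₂ => ?_⟩
    have h3 := (hL q (hT q hq)).dist_le_mul p₁ h₁ p₂ h₂
    rw [dist_eq_norm, dist_eq_norm] at h3
    refine h3.trans (mul_le_mul_of_nonneg_right ?_ (norm_nonneg _))
    exact_mod_cast Finset.single_le_sum (f := L) (fun _ _ => zero_le) hq
  have hFG : ∀ x ∈ C, ∀ s, F (x, s) = P.G.toFun (P.foot x, s) := fun x hx s => by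
    show P.G.toFun (P.foot (r x), s) = _
    rw [hr.fix x hx]
  refine ⟨K, K.2, fun x hx => ?_, fun z hz s hs s' hs' => ?_⟩
  · have h2 : ∀ s ∈ Icc a' b', ∀ᶠ q : E × ℝ in 𝓝 x ×ˢ 𝓝 s,
        ‖F (q.1, q.2) - F (x, q.2)‖ ≤ K * ‖q.1 - x‖ := by
      intro s hs
      obtain ⟨q, -, hpq, hq⟩ := hloc (x, s) ⟨hx, hs⟩
      have e1 : ∀ᶠ p : E × ℝ in 𝓝 x ×ˢ 𝓝 s, p ∈ ball q (δ q) := by
        rw [← nhds_prod_eq]; exact isOpen_ball.mem_nhds hpq
      have e2 : ∀ᶠ p : E × ℝ in 𝓝 x ×ˢ 𝓝 s, (x, p.2) ∈ ball q (δ q) := by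
        rw [← nhds_prod_eq]
        have hc : Continuous (fun p : E × ℝ => (x, p.2)) := by fun_prop
        exact hc.continuousAt.preimage_mem_nhds (isOpen_ball.mem_nhds hpq)
      filter_upwards [e1, e2] with p hp1 hp2
      have h3 := hq _ hp1 _ hp2
      rwa [show ((p : E × ℝ) - (x, p.2)) = (p.1 - x, 0) by ext <;> simp,
        Prod.norm_mk, norm_zero, max_eq_left (norm_nonneg _)] at h3
    have h3 : ∀ᶠ y in 𝓝 x, ∀ s ∈ Icc a' b', ‖F (y, s) - F (x, s)‖ ≤ K * ‖y - x‖ :=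
      isCompact_Icc.eventually_forall_of_forall_eventually fun s hs => by
        rw [nhds_prod_eq]; exact h2 s hs
    filter_upwards [nhdsWithin_le_nhds h3, self_mem_nhdsWithin] with y hy hyC s hs
    have h4 := hy s hs
    rwa [hFG y hyC, hFG x hx.1] at h4
  · -- along a fibre
    have hzs : ∀ s ∈ Icc a' b', P.G.toFun (z, s) ∈ bnd C u a' b' := by
      intro s hs
      refine ⟨(P.mem_bnd hz (Ioo_subset_Icc_self (hsub' hs))).1, ?_⟩
      rw [P.level z hz s (Ioo_subset_Icc_self (hsub' hs))]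
      exact hs
    refine lip_interval (φ := fun s => P.G.toFun (z, s)) (c := a') (d := b') ?_ ?_ s hs s' hs'
    · refine P.G.cont.comp (by fun_prop) fun s hs => ⟨hz, Ioo_subset_Icc_self (hsub' hs)⟩
    · intro s hs
      set x := P.G.toFun (z, s) with hx
      have hxb := hzs s hs
      have hfoot : P.foot x = z := P.foot_apply hz (Ioo_subset_Icc_self (hsub' hs))
      obtain ⟨q, -, hpq, hq⟩ := hloc (x, s) ⟨hxb, hs⟩
      have e2 : ∀ᶠ s' in 𝓝 s, (x, s') ∈ ball q (δ q) := by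
        have hc : Continuous (fun s' : ℝ => (x, s')) := by fun_prop
        exact hc.continuousAt.preimage_mem_nhds (isOpen_ball.mem_nhds hpq)
      filter_upwards [nhdsWithin_le_nhds e2] with s' hs'
      have h3 := hq _ hs' _ hpq
      rw [hFG x hxb.1, hFG x hxb.1, hfoot] at h3
      rwa [show ((x, s') : E × ℝ) - (x, s) = (0, s' - s) by simp,
        Prod.norm_mk, norm_zero, max_eq_right (norm_nonneg _), Real.norm_eq_abs] at h3

/-- the product structure of the band `[t' - η, t' + η]`, as a restriction -/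
theorem exists_sub_band (P : ProdOn C u M t a b) {t' η : ℝ} (hη : 0 < η) (h1 : a ≤ t' - η)
    (h2 : t' + η ≤ b) :
    ∃ Γ : ConHomeo (lev C u t' ×ˢ Icc (-1:ℝ) 1) (band C u t' η),
      (∀ z s, Γ.toFun (z, s) = P.G.toFun (P.foot z, t' + η * s)) ∧
      (∀ x, Γ.invFun x = (P.G.toFun (P.foot x, t'), (u x - t') / η)) ∧
      (∀ z ∈ lev C u t', ∀ s ∈ Icc (-1:ℝ) 1, u (Γ.toFun (z, s)) = t' + η * s) ∧
      (∀ z ∈ lev C u t', Γ.toFun (z, 0) = z) ∧
      ∀ i, ∀ z ∈ lev C u t', ∀ s ∈ Icc (-1:ℝ) 1, (Γ.toFun (z, s) ∈ M i ↔ z ∈ M i) := by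
  have ht' : t' ∈ Icc a b := ⟨by linarith, by linarith⟩
  obtain ⟨L, hL, -⟩ := P.exists_levHomeo ht'
  have hlc : ConicalSet (lev C u t') := L.conicalSet_left
  have hD : ConicalSet (lev C u t' ×ˢ Icc (-1:ℝ) 1) := hlc.prod (conicalSet_Icc _ _)
  have hs : ∀ s ∈ Icc (-1:ℝ) 1, t' + η * s ∈ Icc a b := by
    intro s hs
    constructor <;> nlinarith [hs.1, hs.2]
  have hlev : lev C u t' ⊆ bnd C u a b := ProdOn.lev_sub ht'
  have hbn : band C u t' η ⊆ bnd C u a b := by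
    rintro x ⟨hx, hx2⟩
    have := abs_le.1 hx2
    exact ⟨hx, by linarith [this.1], by linarith [this.2]⟩
  -- the map
  have k1 : ConicalOn (fun p : E × ℝ => p.1) (lev C u t' ×ˢ Icc (-1:ℝ) 1) :=
    conicalOn_linear (LinearMap.fst ℝ E ℝ) hD
  have m1 : MapsTo (fun p : E × ℝ => p.1) (lev C u t' ×ˢ Icc (-1:ℝ) 1) (bnd C u a b) :=
    fun p hp => hlev hp.1
  have k2 : ConicalOn (fun p : E × ℝ => P.foot p.1) (lev C u t' ×ˢ Icc (-1:ℝ) 1) :=
    P.conicalOn_foot.comp k1 m1 continuous_fst.continuousOn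
  have c2 : ContinuousOn (fun p : E × ℝ => P.foot p.1) (lev C u t' ×ˢ Icc (-1:ℝ) 1) :=
    P.continuousOn_foot.comp continuous_fst.continuousOn m1
  have k3 : ConicalOn (fun p : E × ℝ => t' + η * p.2) (lev C u t' ×ˢ Icc (-1:ℝ) 1) :=
    (conicalOn_const t' hD).add ((conicalOn_linear (LinearMap.snd ℝ E ℝ) hD).const_smul η)
  have k4 := k2.prodMk k3
  have c4 : ContinuousOn (fun p : E × ℝ => (P.foot p.1, t' + η * p.2))
      (lev C u t' ×ˢ Icc (-1:ℝ) 1) := c2.prodMk (by fun_prop)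
  have m4 : MapsTo (fun p : E × ℝ => (P.foot p.1, t' + η * p.2))
      (lev C u t' ×ˢ Icc (-1:ℝ) 1) (lev C u t ×ˢ Icc a b) :=
    fun p hp => ⟨P.foot_mem (hlev hp.1), hs p.2 hp.2⟩
  have hval : ∀ z ∈ lev C u t', ∀ s ∈ Icc (-1:ℝ) 1,
      u (P.G.toFun (P.foot z, t' + η * s)) = t' + η * s := fun z hz s hs' =>
    P.level _ (P.foot_mem (hlev hz)) _ (hs s hs')
  have hback : ∀ z ∈ lev C u t', P.G.toFun (P.foot z, t') = z := by
    intro z hz
    have := P.foot_eq (hlev hz)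
    rwa [hz.2] at this
  have hmem : ∀ z ∈ lev C u t', ∀ s ∈ Icc (-1:ℝ) 1,
      P.G.toFun (P.foot z, t' + η * s) ∈ band C u t' η := by
    intro z hz s hs'
    refine ⟨(P.mem_bnd (P.foot_mem (hlev hz)) (hs s hs')).1, ?_⟩
    rw [hval z hz s hs', add_sub_cancel_left, abs_mul, abs_of_pos hη]
    have := abs_le.2 hs'
    nlinarith
  have hfoot : ∀ z ∈ lev C u t', ∀ s ∈ Icc (-1:ℝ) 1,
      P.foot (P.G.toFun (P.foot z, t' + η * s)) = P.foot z := fun z hz s hs' =>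
    P.foot_apply (P.foot_mem (hlev hz)) (hs s hs')
  have hfoot' : ∀ x ∈ band C u t' η, P.foot (P.G.toFun (P.foot x, t')) = P.foot x :=
    fun x hx => P.foot_apply (P.foot_mem (hbn hx)) ht'
  have hinv : ∀ x ∈ band C u t' η, (P.G.toFun (P.foot x, t'), (u x - t') / η) ∈
      lev C u t' ×ˢ Icc (-1:ℝ) 1 := by
    intro x hx
    refine ⟨⟨(P.mem_bnd (P.foot_mem (hbn hx)) ht').1, P.level _ (P.foot_mem (hbn hx)) _ ht'⟩, ?_⟩
    have := abs_le.1 hx.2
    constructor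
    · rw [le_div_iff₀ hη]; linarith [this.1]
    · rw [div_le_iff₀ hη]; linarith [this.2]
  have cu : ContinuousOn u (band C u t' η) := P.continuousOn_u.mono hbn
  let Γ : ConHomeo (lev C u t' ×ˢ Icc (-1:ℝ) 1) (band C u t' η) :=
    { toFun := fun p => P.G.toFun (P.foot p.1, t' + η * p.2)
      invFun := fun x => (P.G.toFun (P.foot x, t'), (u x - t') / η)
      mapsTo := fun p hp => hmem p.1 hp.1 p.2 hp.2
      mapsTo_inv := fun x hx => hinv x hx
      left_inv := by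
        rintro ⟨z, s⟩ ⟨hz, hs'⟩
        show (P.G.toFun (P.foot (P.G.toFun (P.foot z, t' + η * s)), t'),
          (u (P.G.toFun (P.foot z, t' + η * s)) - t') / η) = (z, s)
        rw [hfoot z hz s hs', hback z hz, hval z hz s hs', add_sub_cancel_left,
          mul_div_cancel_left₀ _ hη.ne']
      right_inv := by
        intro x hx
        show P.G.toFun (P.foot (P.G.toFun (P.foot x, t')), t' + η * ((u x - t') / η)) = x
        rw [hfoot' x hx, mul_div_cancel₀ _ hη.ne', add_sub_cancel]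
        exact P.foot_eq (hbn hx)
      cont := P.G.cont.comp c4 m4
      cont_inv := by
        refine ContinuousOn.prodMk ?_ ((cu.sub continuousOn_const).div_const η)
        refine P.G.cont.comp ((P.continuousOn_foot.mono hbn).prodMk continuousOn_const) ?_
        exact fun x hx => ⟨P.foot_mem (hbn hx), ht'⟩
      conical := P.G.conical.comp k4 m4 c4 }
  refine ⟨Γ, fun _ _ => rfl, fun _ => rfl, hval, fun z hz => ?_, fun i z hz s hs' => ?_⟩
  · show P.G.toFun (P.foot z, t' + η * 0) = z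
    rw [mul_zero, add_zero]
    exact hback z hz
  · show P.G.toFun (P.foot z, t' + η * s) ∈ M i ↔ _
    rw [P.vert i _ (P.foot_mem (hlev hz)) _ (hs s hs'), P.foot_iff (hlev hz)]

/-- **[MB-U]** -/
theorem exists_mbU [FiniteDimensional ℝ E] (hC : IsCompact C) (i₀ : ι) (hi₀ : M i₀ = C)
    (hu : ContinuousOn u C) (huc : ConicalOn u C) {r : E → E} (hr : Retr C r) {a b a' b' : ℝ}
    (ha : a < a') (hab : a' ≤ b') (hb : b' < b)
    (hbox : ∀ x ∈ bnd C u a b, ∃ (σ : ℝ →ₗ[ℝ] E) (ρ : ℝ), FlowBox u M x σ ρ) :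
    ∃ L : ℝ, 0 ≤ L ∧ ∀ t η, 0 < η → a' ≤ t - η → t + η ≤ b' →
      ∃ Γ : ConHomeo (lev C u t ×ˢ Icc (-1:ℝ) 1) (band C u t η),
        (∀ z ∈ lev C u t, ∀ s ∈ Icc (-1:ℝ) 1, u (Γ.toFun (z, s)) = t + η * s) ∧
        (∀ z ∈ lev C u t, Γ.toFun (z, 0) = z) ∧
        (∀ i, ∀ z ∈ lev C u t, ∀ s ∈ Icc (-1:ℝ) 1, (Γ.toFun (z, s) ∈ M i ↔ z ∈ M i)) ∧
        (∀ x ∈ band C u t η, ∀ᶠ y in 𝓝[C] x, ∀ s ∈ Icc (-1:ℝ) 1,
          y ∈ band C u t η → ‖Γ.toFun ((Γ.invFun y).1, s) - Γ.toFun ((Γ.invFun x).1, s)‖ ≤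
            L * ‖y - x‖) ∧
        ∀ z ∈ lev C u t, ∀ s ∈ Icc (-1:ℝ) 1, ∀ s' ∈ Icc (-1:ℝ) 1,
          ‖Γ.toFun (z, s) - Γ.toFun (z, s')‖ ≤ L * (η * |s - s'|) := by
  obtain ⟨P⟩ := exists_prodOn (t := a') hC i₀ hi₀ hu huc ⟨ha.le, hab.trans hb.le⟩ hbox
  obtain ⟨L, hL, h1, h2⟩ := exists_unif P hr hC hu ha hb
  refine ⟨L, hL, fun t η hη hta htb => ?_⟩
  obtain ⟨Γ, g1, g2, g3, g4, g5⟩ := exists_sub_band P hη (ha.le.trans hta) (htb.trans hb.le)
  have hs : ∀ s ∈ Icc (-1:ℝ) 1, t + η * s ∈ Icc a' b' := by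
    intro s hs
    constructor <;> nlinarith [hs.1, hs.2]
  have htI : t ∈ Icc a b := ⟨by linarith, by linarith⟩
  have hbn : band C u t η ⊆ bnd C u a' b' := by
    rintro x ⟨hx, hx2⟩
    have := abs_le.1 hx2
    exact ⟨hx, by linarith [this.1], by linarith [this.2]⟩
  have hbn' : band C u t η ⊆ bnd C u a b := fun x hx =>
    ⟨(hbn hx).1, ha.le.trans (hbn hx).2.1, (hbn hx).2.2.trans hb.le⟩
  have hfoot : ∀ x ∈ band C u t η, P.foot (Γ.invFun x).1 = P.foot x := by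
    intro x hx
    rw [g2]
    exact P.foot_apply (P.foot_mem (hbn' hx)) htI
  refine ⟨Γ, g3, g4, g5, fun x hx => ?_, fun z hz s hs' s' hs'' => ?_⟩
  · filter_upwards [h1 x (hbn hx)] with y hy s hs' hyb
    rw [g1, g1, hfoot x hx, hfoot y hyb]
    exact hy _ (hs s hs')
  · rw [g1, g1]
    have h3 := h2 _ (P.foot_mem (ProdOn.lev_sub htI hz)) _ (hs s hs') _ (hs s' hs'')
    rwa [add_sub_add_left_eq_sub, ← mul_sub, abs_mul, abs_of_pos hη] at h3

end P073.H605
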