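import Vale.Agent.P073.H605.Gam
import Vale.Agent.P073.H669.GamLev
import Vale.Agent.P073.H926.RTDat
import Vale.Agent.P073.H194.EdgeAxis

/-!
# P073, H605: **[GAM-IN]** the product structures of round T of `K3C`

`tcell D C b`: the given cells which meet the box `b`; `gX`: their union; `FarC`: points of a
protected cell which are far (laterally) from the passive cells with a given map.
`exists_gamK`: one product structure for every macroscopic interval, vertical at `FarC`.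
-/

open Set Metric Topology Filter

namespace P073.H605

open P073 P073.TR P073.H936 P073.H805 P073.Net P073.PA691
open Vale.Agent.P073.St (V)
open Vale.Agent.P073.H471 Vale.Agent.P073.H267 Vale.Agent.P073.H267.Geo
open Vale.Agent.P073.H73 (Mesh)
open Vale.Agent.P073.H193 (Edges)
open Vale.Agent.P073.H304 (Nb In Zmax)
open Vale.Agent.P073.H238.K3 (Zd Wc)
open Vale.Agent.P073.H926
open Vale.Agent.P073.H669 (Cht GamOk)
open P073.H345 (fam)

/-- finite unions of closed conical sets are conical -/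
theorem conicalSet_biUnion {E ι : Type*} [NormedAddCommGroup E] [NormedSpace ℝ E] {T : Set ι}
    (hT : T.Finite) {Q : ι → Set E} (hc : ∀ i ∈ T, IsClosed (Q i))
    (h : ∀ i ∈ T, ConicalSet (Q i)) : ConicalSet (⋃ i ∈ T, Q i) := by
  intro x _
  have h1 : ∀ i ∈ T, ∃ r > 0, ∀ v : E, ‖v‖ ≤ r → x + v ∈ Q i → ∀ t ∈ Icc (0:ℝ) 1,
      x + t • v ∈ Q i := by
    intro i hi
    by_cases hx : x ∈ Q i
    · exact h i hi x hx
    · obtain ⟨ε, hε, hb⟩ := Metric.isOpen_iff.1 (hc i hi).isOpen_compl x hx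
      refine ⟨ε / 2, by positivity, fun v hv hxv t _ => absurd hxv (hb ?_)⟩
      rw [mem_ball, dist_eq_norm, add_sub_cancel_left]
      linarith
  choose! r hr H using h1
  have h2 : ∃ r₀ > 0, ∀ i ∈ T, r₀ ≤ r i := by
    rcases T.eq_empty_or_nonempty with he | hne
    · exact ⟨1, one_pos, fun i hi => by rw [he] at hi; exact absurd hi (notMem_empty i)⟩
    · have hne' : hT.toFinset.Nonempty := hT.toFinset_nonempty.2 hne
      refine ⟨hT.toFinset.inf' hne' r, ?_, fun i hi =>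
        Finset.inf'_le _ (hT.mem_toFinset.2 hi)⟩
      rw [gt_iff_lt, Finset.lt_inf'_iff]
      exact fun i hi => hr i (hT.mem_toFinset.1 hi)
  obtain ⟨r₀, hr₀, hle⟩ := h2
  refine ⟨r₀, hr₀, fun v hv hxv t ht => ?_⟩
  obtain ⟨i, hi, hxi⟩ := mem_iUnion₂.1 hxv
  exact mem_iUnion₂.2 ⟨i, hi, H i hi v (hv.trans (hle i hi)) hxi t ht⟩

variable {c₀ n δ : ℝ} {j : ℕ} {Ω Λ : Set V} {v w : V} {ρ : V → ℝ} {M : Mesh Ω} {h : ConHomeo Ω Λ}
  {J₀ J : Set (ℕ × (Fin 3 → ℤ))} {P Z : Set M.ι} {K : BoxCx Λ w}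

/-- the given cells which meet the box `b` -/
def tcell (D : KIn3 c₀ n j δ v w ρ M h J₀ J P Z) (C : Cells ρ w K) (b : TBx K) : Set M.ι :=
  {i | i ∈ P ∪ Wc D C ∧ ∃ x ∈ M.Q i, h.toFun x ∈ (D.G C).TB false b}

/-- their union -/
def gX (D : KIn3 c₀ n j δ v w ρ M h J₀ J P Z) (C : Cells ρ w K) (b : TBx K) : Set V :=
  ⋃ i ∈ tcell D C b, M.Q i

/-- the point `x` of the protected cell `i` is (laterally) in the box and far from the other given
cells -/
structure FarC (D : KIn3 c₀ n j δ v w ρ M h J₀ J P Z) (C : Cells ρ w K) (b : TBx K) (i : M.ι)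
    (x : V) : Prop where
  mem : x ∈ M.Q i
  lo : ∀ l, l ≠ b.ax → (D.G C).tlo false b l + 2 * ω3T δ C b ≤ h.toFun x l
  hi : ∀ l, l ≠ b.ax → h.toFun x l ≤ (D.G C).thi false b l - 2 * ω3T δ C b
  far : ∀ k ∈ tcell D C b, k ≠ i → ∀ y ∈ M.Q i, y ∈ M.Q k →
    ∃ l, l ≠ b.ax ∧ 2 * ω3T δ C b ≤ |h.toFun x l - h.toFun y l|

section

variable (D : KIn3 c₀ n j δ v w ρ M h J₀ J P Z) (C : Cells ρ w K)

theorem finite_tcell (b : TBx K) : (tcell D C b).Finite := by
  have hsub : (D.G C).TB false b ⊆ Λ := (D.G C).TB_sub b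
  have hc : IsCompact (h.invFun '' (D.G C).TB false b) :=
    isCompact_Icc.image_of_continuousOn (h.cont_inv.mono hsub)
  refine (M.fin _ ?_ hc).subset ?_
  · rintro _ ⟨y, hy, rfl⟩
    exact h.mapsTo_inv (hsub hy)
  · rintro i ⟨-, x, hx, hxb⟩
    refine ⟨x, hx, h.toFun x, hxb, h.left_inv (M.sub i hx)⟩

theorem isCompact_gX (b : TBx K) : IsCompact (gX D C b) :=
  (finite_tcell D C b).isCompact_biUnion fun i _ => (M.poly i).cpt

theorem gX_sub (b : TBx K) : gX D C b ⊆ Ω := iUnion₂_subset fun i _ => M.sub i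

theorem conicalSet_cell (i : M.ι) : ConicalSet (M.Q i) := by
  obtain ⟨m, ν, t, hQ⟩ := (M.poly i).half
  rw [hQ]
  refine Convex.conicalSet ?_
  intro x hx y hy a b ha hb hab k
  rw [map_add, map_smul, map_smul, smul_eq_mul, smul_eq_mul]
  have h1 := mul_le_mul_of_nonneg_left (hx k) ha
  have h2 := mul_le_mul_of_nonneg_left (hy k) hb
  calc a * ν k x + b * ν k y ≤ a * t k + b * t k := add_le_add h1 h2
    _ = t k := by rw [← add_mul, hab, one_mul]

theorem conicalSet_gX (b : TBx K) : ConicalSet (gX D C b) :=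
  conicalSet_biUnion (finite_tcell D C b) (fun i _ => (M.poly i).cpt.isClosed)
    fun i _ => conicalSet_cell i

/-- near the boxes we are near the processed tiles -/
theorem near_TB {b : TBx K} (hb : b ∈ pB C J₀) {y z : V} (hy : y ∈ (D.G C).TB false b)
    (hz : ‖z - y‖ ≤ ω3T δ C b) :
    ∃ t ∈ pT C J₀, z ∈ Nb w {C.fT t} c₀ ∧ δ * C.sT t ≤ ω3T δ C b := by
  have hd0 := D.δpos
  have hd1 : 4 * δ ≤ c₀ / 2 := by
    have h3 := D.δle
    have h4 := D.η_le_κ
    have h5 := D.κ_le_c₀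
    have h6 := D.c₀_pos
    linarith
  have key : ∀ t ∈ pT C J₀, y ∈ Nb w {C.fT t} (c₀ / 2) → ∀ s : ℝ, ω3T δ C b = 4 * δ * s →
      s ≤ C.sT t → C.sT t ≤ 4 * s →
      ∃ t ∈ pT C J₀, z ∈ Nb w {C.fT t} c₀ ∧ δ * C.sT t ≤ ω3T δ C b := by
    intro t ht hN s hs h1 h2
    obtain ⟨x₁, hx₁, hxy⟩ := (mem_Nb_one C).1 hN
    have hT := C.sT_pos t
    refine ⟨t, ht, (mem_Nb_one C).2 ⟨x₁, hx₁, ?_⟩, ?_⟩
    · have h3 : 4 * δ * s ≤ 4 * δ * C.sT t := mul_le_mul_of_nonneg_left h1 (by positivity)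
      have h4 : 4 * δ * C.sT t ≤ c₀ / 2 * C.sT t := mul_le_mul_of_nonneg_right hd1 hT.le
      calc ‖z - x₁‖ = ‖(z - y) + (y - x₁)‖ := by congr 1; abel
        _ ≤ ‖z - y‖ + ‖y - x₁‖ := norm_add_le _ _
        _ ≤ c₀ * C.sT t := by linarith
    · rw [hs]
      nlinarith
  rcases b with e | k
  · obtain ⟨q, hq, hqs⟩ := inl_mem_pB.1 hb
    obtain ⟨h3, h4⟩ := C.sG_sT D.hρ hqs
    exact key q hq (D.supp_E C (Ze_subset (Geo.TB_subset_Ze e hy)) hqs) (C.sG e) rfl h3 h4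
  · obtain ⟨q, hq, hqs⟩ := exists_of_pS (inr_mem_pB.1 hb)
    have hsub : K.sq k.s ⊆ K.cube q := by
      rcases hqs with rfl | rfl
      · exact (TM.sq_subset K k.s).1
      · exact (TM.sq_subset K k.s).2
    obtain ⟨h3, h4⟩ := C.sW_sT D.hρ (hsub (Geo.hang_mem k))
    exact key q hq (D.supp_S C (Zs_subset (Geo.TB_subset_Zs k hy)) hqs) (C.sW k.i) rfl h3 h4

include D in
/-- protected cells have affine maps, and are boxes -/
theorem exists_affP {i : M.ι} (hi : i ∈ P) : ∃ a lam : V, (∀ k, lam k ≠ 0) ∧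
    (∀ x ∈ M.Q i, ∀ k, h.toFun x k = a k + lam k * x k) ∧ ∃ lo hi : V, M.Q i = Icc lo hi := by
  obtain ⟨t, ht, a, r, s, hr, hs, hQ, hf⟩ := D.inp.prot i hi
  have hη := D.η_le_one
  have hpos : 0 < (1 - (1:ℝ) / 2 ^ j) / 2 / 2 ^ t.1 / r := by
    have : 0 < 1 - (1:ℝ) / 2 ^ j := by linarith
    positivity
  refine ⟨fun k => Vale.Agent.P073.H73.ctr w t.1 t.2 k -
      (1 - 1 / 2 ^ j) / 2 / 2 ^ t.1 / r * s k * a k,
    fun k => (1 - 1 / 2 ^ j) / 2 / 2 ^ t.1 / r * s k, fun k => ?_, fun x hx k => ?_, ?_⟩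
  · refine mul_ne_zero hpos.ne' ?_
    rcases hs k with h1 | h1 <;> rw [h1] <;> norm_num
  · rw [hf x hx k]
    ring
  · rw [hQ]
    exact Vale.Agent.P073.H194.closedBall_box a hr.le

/-- at points of protected cells near the boxes all sets of the mesh are boxes -/
theorem box_near {E : Edges M} {b : TBx K} (hb : b ∈ pB C J₀) {x y : V}
    {i₀ : M.ι} (hi₀ : i₀ ∈ P) (hx₀ : x ∈ M.Q i₀)
    (hy : y ∈ (D.G C).TB false b) (hxy : ‖h.toFun x - y‖ ≤ ω3T δ C b)
    (m : M.ι ⊕ (M.κ ⊕ (E.ε ⊕ E.verts))) (hm : x ∈ Sum.elim M.Q (fam M E) m) :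
    ∃ lo hi : V, Sum.elim M.Q (fam M E) m = Icc lo hi := by
  obtain ⟨t, ht, hN, -⟩ := near_TB D C hb hy hxy
  have hN' : h.toFun x ∈ Nb w J₀ c₀ := mem_Nb_of C ht hN
  have hface : ∀ k, x ∈ M.F k → ∃ s, M.F k = Vale.Agent.P073.AB.squ v s := fun k hk =>
    D.inp.face_prot' hi₀ hx₀ hk ⟨h.toFun x, mem_image_of_mem _ hk, hN'⟩
  rcases m with i | k | e | y
  · by_cases hi : i ∈ P
    · obtain ⟨-, -, -, -, hbox⟩ := exists_affP D hi
      exact hbox
    · obtain ⟨m, z, hQ⟩ := D.inp.cube i hi ⟨h.toFun x, mem_image_of_mem _ hm, hN'⟩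
      show ∃ lo hi : V, M.Q i = Icc lo hi
      rw [hQ]
      exact Vale.Agent.P073.H194.dyc_box v m z
  · obtain ⟨s, hs⟩ := hface k hm
    show ∃ lo hi : V, M.F k = Icc lo hi
    rw [hs]
    exact Vale.Agent.P073.H194.squ_box v s
  · obtain ⟨k, hk⟩ : ∃ k, E.seg e ⊆ M.F k := E.own e
    obtain ⟨s, hs⟩ := hface k (hk hm)
    exact Vale.Agent.P073.H194.seg_box E hs hk
  · exact Vale.Agent.P073.H194.singleton_box y.1

/-- the given cells near a box are boxes -/
theorem box_tcell {b : TBx K} (hb : b ∈ pB C J₀) {i : M.ι} (hi : i ∈ tcell D C b) :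
    ∃ lo hi : V, M.Q i = Icc lo hi := by
  obtain ⟨hi1, x, hx, hxb⟩ := hi
  rcases hi1 with h1 | h1
  · obtain ⟨-, -, -, -, hbox⟩ := exists_affP D h1
    exact hbox
  · obtain ⟨t, ht, hN, -⟩ := near_TB D C hb hxb (z := h.toFun x) (by
      rw [sub_self, norm_zero]; exact (D.ω3T_pos C b).le)
    obtain ⟨m, z, hQ⟩ := D.inp.cube i h1.2.1 ⟨h.toFun x, mem_image_of_mem _ hx, mem_Nb_of C ht hN⟩
    rw [hQ]
    exact Vale.Agent.P073.H194.dyc_box v m z

/-- **[GAM-IN]**: the input of [GAM] -/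
theorem exists_gamIn (hΩ : IsOpen Ω) (E : Edges M) {b : TBx K} (hb : b ∈ pB C J₀)
    (hlohi : (D.G C).tlo false b b.ax ≤ (D.G C).thi false b b.ax) {a₁ b₁ : ℝ}
    (hlo : (D.G C).tlo false b b.ax - ω3T δ C b ≤ a₁)
    (hhi : b₁ ≤ (D.G C).thi false b b.ax + ω3T δ C b)
    (hreg : ∀ x ∈ gX D C b, h.toFun x b.ax ∈ Icc a₁ b₁ →
      Reg (fun y => h.toFun y b.ax) (Sum.elim M.Q (fam M E)) x) :
    ∃ O Dd : M.ι → Set V, GamIn (fun y => h.toFun y b.ax) M.Q (fam M E) (tcell D C b) P b.ax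
      O Dd a₁ b₁ ∧ ∀ i ∈ P, ∀ x, FarC D C b i x → x ∈ Dd i := by
  classical
  have hω := D.ω3T_pos C b
  choose! a lam hlam haff hbox using fun i (hi : i ∈ P) => exists_affP D hi
  set A : M.ι → V → V := fun i x k => a i k + lam i k * x k with hA
  have hAc : ∀ i l, Continuous fun x => A i x l := by
    intro i l
    simp only [hA]
    fun_prop
  have hAh : ∀ i ∈ P, ∀ x ∈ M.Q i, ∀ k, A i x k = h.toFun x k := fun i hi x hx k =>
    (haff i hi x hx k).symm
  -- contact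
  set Kc : M.ι → Set V := fun i => ⋃ k ∈ {k | k ∈ tcell D C b ∧ k ≠ i}, (M.Q i ∩ M.Q k) with hKc
  have hKcpt : ∀ i, IsCompact (h.toFun '' Kc i) := by
    intro i
    have h1 : IsCompact (Kc i) := ((finite_tcell D C b).subset fun k hk => hk.1).isCompact_biUnion
      fun k _ => (M.poly i).cpt.inter (M.poly k).cpt
    refine h1.image_of_continuousOn (h.cont.mono ?_)
    exact iUnion₂_subset fun k _ => inter_subset_left.trans (M.sub i)
  set O : M.ι → Set V := fun i => {x | (∀ l, l ≠ b.ax →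
      (D.G C).tlo false b l + ω3T δ C b < A i x l ∧
      A i x l < (D.G C).thi false b l - ω3T δ C b) ∧
    ∀ y ∈ h.toFun '' Kc i, ∃ l, l ≠ b.ax ∧ ω3T δ C b < |A i x l - y l|} with hO
  set Dd : M.ι → Set V := fun i => {x | (∀ l, l ≠ b.ax →
      (D.G C).tlo false b l + 2 * ω3T δ C b ≤ A i x l ∧
      A i x l ≤ (D.G C).thi false b l - 2 * ω3T δ C b) ∧
    ∀ y ∈ h.toFun '' Kc i, ∃ l, l ≠ b.ax ∧ 2 * ω3T δ C b ≤ |A i x l - y l|} with hDd
  have hupd : ∀ i x s l, l ≠ b.ax → A i (Function.update x b.ax s) l = A i x l := by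
    intro i x s l hl
    simp only [hA, Function.update_of_ne hl]
  -- a point of `O i` is near the box
  have hnear : ∀ i ∈ P, ∀ x ∈ M.Q i, h.toFun x b.ax ∈ Icc a₁ b₁ → x ∈ O i →
      ∃ y ∈ (D.G C).TB false b, ‖h.toFun x - y‖ ≤ ω3T δ C b := by
    intro i hi x hx hxu hxO
    refine ⟨Function.update (h.toFun x) b.ax (max ((D.G C).tlo false b b.ax)
      (min ((D.G C).thi false b b.ax) (h.toFun x b.ax))), ?_, ?_⟩
    · refine ⟨fun l => ?_, fun l => ?_⟩
      · by_cases hl : l = b.ax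
        · rw [hl, Function.update_self]; exact le_max_left _ _
        · rw [Function.update_of_ne hl, ← hAh i hi x hx]
          linarith [(hxO.1 l hl).1]
      · by_cases hl : l = b.ax
        · rw [hl, Function.update_self]; exact max_le hlohi (min_le_left _ _)
        · rw [Function.update_of_ne hl, ← hAh i hi x hx]
          linarith [(hxO.1 l hl).2]
    · rw [pi_norm_le_iff_of_nonneg hω.le]
      intro l
      rw [Pi.sub_apply, Real.norm_eq_abs]
      by_cases hl : l = b.ax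
      · rw [hl, Function.update_self]
        have h1 := hxu.1
        have h2 := hxu.2
        rcases le_total (h.toFun x b.ax) ((D.G C).thi false b b.ax) with h3 | h3
        · rw [min_eq_right h3]
          rcases le_total ((D.G C).tlo false b b.ax) (h.toFun x b.ax) with h4 | h4
          · rw [max_eq_right h4, sub_self, abs_zero]; exact hω.le
          · rw [max_eq_left h4, abs_of_nonpos (by linarith)]
            linarith
        · rw [min_eq_left h3, max_eq_right hlohi, abs_of_nonneg (by linarith)]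
          linarith
      · rw [Function.update_of_ne hl, sub_self, abs_zero]; exact hω.le
  -- contact points
  have hcon : ∀ i ∈ P, ∀ x ∈ M.Q i, x ∈ O i → ∀ k ∈ tcell D C b, k ≠ i → ∀ y ∈ M.Q i,
      y ∈ M.Q k → ∃ l, l ≠ b.ax ∧ ω3T δ C b < |h.toFun x l - h.toFun y l| := by
    intro i hi x hx hxO k hk hne y hy hyk
    obtain ⟨l, hl, h1⟩ := hxO.2 _ (mem_image_of_mem h.toFun
      (mem_iUnion₂.2 ⟨k, ⟨hk, hne⟩, hy, hyk⟩ : y ∈ Kc i))
    rw [hAh i hi x hx] at h1
    exact ⟨l, hl, h1⟩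
  have hsep : ∀ i ∈ tcell D C b, i ∈ P → ∀ x ∈ M.Q i, h.toFun x b.ax ∈ Icc a₁ b₁ → x ∈ O i →
      ∀ k ∈ tcell D C b, x ∈ M.Q k → k = i := by
    intro i _ hiP x hx _ hxO k hk hxk
    by_contra hne
    obtain ⟨l, -, h1⟩ := hcon i hiP x hx hxO k hk hne x hx hxk
    rw [sub_self, abs_zero] at h1
    linarith
  refine ⟨O, Dd, ⟨finite_tcell D C b, ?_, ?_, ?_, fun i _ => (M.poly i).cpt, ?_, ?_, ?_, ?_, ?_,
    ?_, ?_, ?_, ?_, hsep, ?_, ?_⟩, ?_⟩
  · -- locally finite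
    intro i _ x hx
    have hxΩ := M.sub i hx
    obtain ⟨U, hU, hf⟩ := Vale.Agent.P073.H669.fam_lf hΩ M E x hxΩ
    obtain ⟨r, hr, hb'⟩ := Metric.nhds_basis_closedBall.mem_iff.1 (hΩ.mem_nhds hxΩ)
    have hc := isCompact_closedBall x r
    refine ⟨closedBall x r ∩ U, inter_mem (closedBall_mem_nhds x hr) hU, ?_⟩
    refine (((M.fin _ hb' hc).image Sum.inl).union (hf.image Sum.inr)).subset ?_
    rintro (k | m) hm
    · exact Or.inl ⟨k, hm.mono (inter_subset_inter_right _ inter_subset_left), rfl⟩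
    · exact Or.inr ⟨m, hm.mono (inter_subset_inter_right _ inter_subset_right), rfl⟩
  · -- cover
    intro i _ x hx
    filter_upwards [hΩ.mem_nhds (M.sub i hx)] with y hy
    exact M.cover y hy
  · -- closed
    rintro (k | k | e | y)
    · exact (M.poly k).cpt.isClosed
    · exact (Vale.Agent.P073.H193.pgn_of_fat (M.fat k)).cpt.isClosed
    · exact (E.isCompact_seg e).isClosed
    · exact isClosed_singleton
  · exact (continuous_apply b.ax).comp_continuousOn (h.cont.mono (gX_sub D C b))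
  · have h1 : ConicalOn (fun y : V => y b.ax) univ :=
      conicalOn_linear (LinearMap.proj (R := ℝ) (φ := fun _ : Fin 3 => ℝ) b.ax)
        (IsOpen.conicalSet isOpen_univ)
    exact h1.comp (h.conical.mono (conicalSet_gX D C b) (gX_sub D C b))
      (fun _ _ => mem_univ _) (h.cont.mono (gX_sub D C b))
  · exact fun i hi x hx hxu => hreg x (mem_iUnion₂.2 ⟨i, hi, hx⟩) hxu
  · exact fun i _ hi => ⟨a i b.ax, lam i b.ax, hlam i hi b.ax, fun x hx => haff i hi x hx b.ax⟩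
  · exact fun i _ hi i' _ hi' hne => D.disjoint_prot C hi hi' hne
  · -- open
    intro i
    have h1 : O i = (⋂ l ∈ {l | l ≠ b.ax}, {x | (D.G C).tlo false b l + ω3T δ C b < A i x l ∧
        A i x l < (D.G C).thi false b l - ω3T δ C b}) ∩
        {x | ∀ y ∈ h.toFun '' Kc i, ∃ l, l ≠ b.ax ∧ ω3T δ C b < |A i x l - y l|} := by
      ext x
      simp only [hO, mem_ofPred_eq, mem_inter_iff, mem_iInter]
    rw [h1]
    refine IsOpen.inter ?_ ?_
    · refine (Set.toFinite _).isOpen_biInter fun l _ => ?_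
      exact (isOpen_lt continuous_const (hAc i l)).inter (isOpen_lt (hAc i l) continuous_const)
    · rw [isOpen_iff_eventually]
      intro x hx
      refine (hKcpt i).eventually_forall_of_forall_eventually fun y hy => ?_
      obtain ⟨l, hl, h2⟩ := hx y hy
      have hc : Continuous fun z : V × V => |A i z.1 l - z.2 l| := by
        have := hAc i l
        fun_prop
      filter_upwards [hc.continuousAt.eventually (lt_mem_nhds h2)] with z hz
      exact ⟨l, hl, hz⟩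
  · -- closed
    intro i
    have h1 : Dd i = (⋂ l ∈ {l | l ≠ b.ax}, {x | (D.G C).tlo false b l + 2 * ω3T δ C b ≤ A i x l ∧
        A i x l ≤ (D.G C).thi false b l - 2 * ω3T δ C b}) ∩
        ⋂ y ∈ h.toFun '' Kc i, ⋃ l ∈ {l | l ≠ b.ax}, {x | 2 * ω3T δ C b ≤ |A i x l - y l|} := by
      ext x
      simp only [hDd, mem_ofPred_eq, mem_inter_iff, mem_iInter, mem_iUnion, exists_prop]
    rw [h1]
    refine IsClosed.inter ?_ ?_
    · refine isClosed_biInter fun l _ => ?_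
      exact (isClosed_le continuous_const (hAc i l)).inter
        (isClosed_le (hAc i l) continuous_const)
    · refine isClosed_biInter fun y _ => (Set.toFinite _).isClosed_biUnion fun l _ => ?_
      exact isClosed_le continuous_const (((hAc i l).sub continuous_const).abs)
  · -- `Dd ⊆ O`
    rintro i - hiP x hx ⟨h1, h2⟩
    refine ⟨fun l hl => ⟨by linarith [(h1 l hl).1], by linarith [(h1 l hl).2]⟩,
      fun y hy => ?_⟩
    obtain ⟨l, hl, h3⟩ := h2 y hy
    exact ⟨l, hl, by linarith⟩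
  · -- vertical
    rintro i x s ⟨h1, h2⟩
    refine ⟨fun l hl => ?_, fun y hy => ?_⟩
    · rw [hupd i x s l hl]; exact h1 l hl
    · obtain ⟨l, hl, h3⟩ := h2 y hy
      exact ⟨l, hl, by rw [hupd i x s l hl]; exact h3⟩
  · -- far
    intro i hi hiP x hx hxu hxO k hk hxk k' hk' hne
    obtain ⟨y₀, hy₀, hxy⟩ := hnear i hiP x hx hxu hxO
    obtain ⟨t, ht, hN, hδt⟩ := near_TB D C hb hy₀ hxy
    rw [Set.disjoint_left]
    rintro y ⟨hyi, hyk⟩ hyk'
    obtain ⟨l, -, h1⟩ := hcon i hiP x hx hxO k' hk' hne y hyi hyk'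
    have hkP : k ∉ P := by
      intro hkP
      by_cases hki : k = i
      · exact hk (hki ▸ hi)
      · exact Set.disjoint_left.1 (D.disjoint_prot C hkP hiP hki) hxk hx
    have h2 := D.small' C hkP ht le_rfl hxk hN hyk
    have h3 : |h.toFun x l - h.toFun y l| ≤ ‖h.toFun x - h.toFun y‖ := by
      have := norm_le_pi_norm (h.toFun x - h.toFun y) l
      rwa [Pi.sub_apply, Real.norm_eq_abs] at this
    linarith
  · -- boxes
    intro i _ hiP x hx hxu hxO m hm
    obtain ⟨y₀, hy₀, hxy⟩ := hnear i hiP x hx hxu hxO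
    exact box_near D C hb hiP hx hy₀ hxy m hm
  · -- the region
    rintro i hiP x hF
    refine ⟨fun l hl => ?_, ?_⟩
    · rw [hAh i hiP x hF.mem]
      exact ⟨hF.lo l hl, hF.hi l hl⟩
    · rintro _ ⟨y, hy, rfl⟩
      obtain ⟨k, ⟨hk, hne⟩, hyi, hyk⟩ := mem_iUnion₂.1 hy
      obtain ⟨l, hl, h1⟩ := hF.far k hk hne y hyi hyk
      exact ⟨l, hl, by rw [hAh i hiP x hF.mem]; exact h1⟩

/-- the product structure `Γ` is vertical at the points `FarC` -/
def Vert (b : TBx K) (t : ℝ) {η : ℝ} (Γ : Cht h (gX D C b) b.ax t η) : Prop :=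
  ∀ i ∈ P, ∀ z ∈ lev (gX D C b) (fun x => h.toFun x b.ax) t, ∀ s ∈ Icc (-1:ℝ) 1,
    FarC D C b i z ∨ FarC D C b i (Γ.toFun (z, s)) →
    ∀ l, l ≠ b.ax → h.toFun (Γ.toFun (z, s)) l = h.toFun z l

/-- **[GAM] for round T of `K3C`** -/
theorem exists_gamK (hΩ : IsOpen Ω) (E : Edges M) {b : TBx K} (hb : b ∈ pB C J₀) {p : ℝ × ℝ}
    {w₀ : ℝ} (hw : 0 < w₀) (hp : p.1 ≤ p.2) (hlo : (D.G C).tlo false b b.ax ≤ p.1)
    (hhi : p.2 ≤ (D.G C).thi false b b.ax)
    (hreg : ∀ x ∈ gX D C b, h.toFun x b.ax ∈ Icc (p.1 - w₀ / 2) (p.2 + w₀ / 2) →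
      Reg (fun y => h.toFun y b.ax) (Sum.elim M.Q (fam M E)) x) :
    ∃ L : ℝ, 0 ≤ L ∧ ∀ t η, 0 < η → p.1 ≤ t - η → t + η ≤ p.2 →
      ∃ Γ : Cht h (gX D C b) b.ax t η,
        GamOk h (gX D C b) b.ax (Sum.elim M.Q (fam M E)) {S | ∃ i ∈ tcell D C b, S = M.Q i}
          L t η Γ ∧ Vert D C b t Γ := by
  have hω := D.ω3T_pos C b
  set ε : ℝ := min (w₀ / 2) (ω3T δ C b) with hε
  have hε0 : 0 < ε := lt_min (by positivity) hω
  have hε1 : ε ≤ w₀ / 2 := min_le_left _ _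
  have hε2 : ε ≤ ω3T δ C b := min_le_right _ _
  obtain ⟨O, Dd, HG, hF⟩ := exists_gamIn D C hΩ E hb (hlo.trans (hp.trans hhi))
    (a₁ := p.1 - ε) (b₁ := p.2 + ε) (by linarith) (by linarith)
    (fun x hx hxu => hreg x hx ⟨by linarith [hxu.1], by linarith [hxu.2]⟩)
  obtain ⟨L, hL, H⟩ := HG.exists_gam (fun i hi => box_tcell D C hb hi) (a' := p.1) (b' := p.2)
    (by linarith) hp (by linarith)
  refine ⟨L, hL, fun t η hη h1 h2 => ?_⟩
  obtain ⟨Γ, g1, g2, g3, g4, g5, g6⟩ := H t η hη h1 h2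
  refine ⟨Γ, ⟨g1, g2, g3, ?_, g6⟩, ?_⟩
  · rintro _ ⟨i, hi, rfl⟩ x hx hxi
    filter_upwards [g5 i hi x hxi hx] with y hy s hs hyb
    exact hy hyb s hs
  · intro i hiP z hz s hs hor l hl
    obtain ⟨a, lam, -, haff, -⟩ := exists_affP D hiP
    have htI : ∀ s ∈ Icc (-1:ℝ) 1, t + η * s ∈ Icc p.1 p.2 := by
      intro s hs
      constructor <;> nlinarith [hs.1, hs.2]
    -- the cell is in the family
    have hcell : ∀ x, FarC D C b i x → h.toFun x b.ax ∈ Icc p.1 p.2 → i ∈ tcell D C b := by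
      intro x hx hxt
      refine ⟨Or.inl hiP, x, hx.mem, fun k => ?_, fun k => ?_⟩
      · by_cases hk : k = b.ax
        · rw [hk]; exact hlo.trans hxt.1
        · linarith [hx.lo k hk]
      · by_cases hk : k = b.ax
        · rw [hk]; exact hxt.2.trans hhi
        · linarith [hx.hi k hk]
    have hiT : i ∈ tcell D C b := by
      rcases hor with h3 | h3
      · refine hcell z h3 ?_
        have := htI 0 ⟨by norm_num, by norm_num⟩
        rw [mul_zero, add_zero] at this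
        have h4 : h.toFun z b.ax = t := hz.2
        rw [h4]; exact this
      · refine hcell _ h3 ?_
        have h4 : h.toFun (Γ.toFun (z, s)) b.ax = t + η * s := g1 z hz s hs
        rw [h4]; exact htI s hs
    have hzi : z ∈ M.Q i ∧ Γ.toFun (z, s) ∈ M.Q i := by
      have h5 : (Γ.toFun (z, s) ∈ M.Q i ↔ z ∈ M.Q i) := g3 (Sum.inl i) z hz s hs
      rcases hor with h3 | h3
      · exact ⟨h3.mem, h5.2 h3.mem⟩
      · exact ⟨h5.1 h3.mem, h3.mem⟩
    have h6 := g4 i hiT hiP z hz s hs (hor.imp (fun h3 => ⟨h3.mem, hF i hiP _ h3⟩)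
      fun h3 => ⟨h3.mem, hF i hiP _ h3⟩) l hl
    rw [haff _ hzi.2, haff _ hzi.1, h6]

end

end P073.H605
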