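import Vale.Agent.P073.H605.GlueD

/-!
# P073, block B09, [GLUE]: `GlueBox` from `BoxCell`, main theorem
-/

namespace Vale.Agent.P073.H605

open MeasureTheory Set Filter Topology Metric Vale.Agent.P073.St Vale.Agent.P073.AB
open Vale.Agent.P073.SQ (ev)
open _root_.P073 (ConHomeo)
open _root_.P073.Gauge (gam dvar)
open _root_.P073.Gauge.C110
open _root_.P073.Gauge.O407 (jInt eInt_eq deriv_gam dvar_eq dvar_zero exists_pos_le eInt_le_sum)
open Vale.Agent.P073.H333 (eInt_congr_edge dvar_one dvar_one_zero eInt_mono' edge_eq_sub edge_sub_gbox)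
open scoped ENNReal

/-- the length of the identity on an edge -/
theorem eInt_id (v : V) (e : Idx × Fin 3) :
    eInt v e (fun x => ENNReal.ofReal ‖lineDeriv ℝ (fun y : V => y) x (ev e.2)‖) ≤
      ENNReal.ofReal (1 / 2 ^ e.1.1) := by
  have h1 : ∀ x : V, lineDeriv ℝ (fun y : V => y) x (ev e.2) = ev e.2 := by
    intro x
    unfold lineDeriv
    have h3 : HasDerivAt (fun t : ℝ => x + t • ev e.2) ((1:ℝ) • ev e.2) 0 :=
      ((hasDerivAt_id (0:ℝ)).smul_const (ev e.2)).const_add x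
    rw [h3.deriv, one_smul]
  refine (eInt_mono' v e (K := fun _ => ENNReal.ofReal 1) fun x => ?_).trans ?_
  · rw [h1, S293.ev_norm]
  · rw [S293.eInt_const, ← ENNReal.ofReal_mul (by positivity), mul_one]

theorem glueBox_of (hB : BoxCell) : GlueBox := by
  classical
  intro R R' φ v N m α ε hR hR' hRb hm hmN hC hε
  obtain ⟨C₁, hC₁, hB⟩ := hB
  obtain ⟨b, hb1, hb2⟩ := exists_exp hm
  have hbN : b ≤ N := by
    have h1 : 2 ^ b < 2 ^ (N + 1) := by
      rw [pow_succ]
      omega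
    have h2 := (Nat.pow_lt_pow_iff_right one_lt_two).1 h1
    omega
  set C := sbox v N α m 0 with hCdef
  have hCc : IsCompact C := by
    rw [hCdef, sbox_zero]
    exact S308.isCompact_gbox _ _ _ _
  obtain ⟨ρ, hρ, hρR⟩ := hCc.exists_cthickening_subset_open hR hC
  set X := cthickening ρ C with hX
  have hXc : IsCompact X := hCc.cthickening
  have hCX : C ⊆ X := self_subset_cthickening _
  obtain ⟨K, hK0, hK⟩ := edge_len hR φ hXc hρR
  have hu := hXc.uniformContinuousOn_of_continuous (φ.cont.mono hρR)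
  rw [Metric.uniformContinuousOn_iff] at hu
  obtain ⟨ω, hω, hu⟩ := hu ε hε
  -- the choice of `k₁`
  obtain ⟨n₀, hn₀⟩ := pow_unbounded_of_one_lt
    (4 / ρ + C₁ / ρ + C₁ / ω + 4 * K * (C₁ + 1) * 2 ^ N / ε) (one_lt_two : (1:ℝ) < 2)
  have t1 : (0:ℝ) ≤ 4 / ρ := by positivity
  have t2 : (0:ℝ) ≤ C₁ / ρ := by positivity
  have t3 : (0:ℝ) ≤ C₁ / ω := by positivity
  have t4 : (0:ℝ) ≤ 4 * K * (C₁ + 1) * 2 ^ N / ε := by positivity
  set k₁ := max n₀ (b + 3) with hk₁
  have hk₁b : b + 3 ≤ k₁ := le_max_right _ _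
  set d := k₁ - b with hd
  have hM : N - b + k₁ = N + d := by omega
  have hd2 : 2 ≤ d := by omega
  have hpM : (0:ℝ) < 2 ^ (N + d) := by positivity
  have hbig : (2:ℝ) ^ n₀ ≤ 2 ^ (N + d) :=
    pow_le_pow_right₀ (by norm_num) (by have := le_max_left n₀ (b + 3); omega)
  have c1 : 4 / 2 ^ (N + d) ≤ ρ := by
    rw [div_le_iff₀ hpM, ← div_le_iff₀' hρ]
    linarith
  have c2 : C₁ / 2 ^ (N + d) ≤ ρ := by
    rw [div_le_iff₀ hpM, ← div_le_iff₀' hρ]
    linarith
  have c3 : C₁ / 2 ^ (N + d) < ω := by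
    rw [div_lt_iff₀ hpM, ← div_lt_iff₀' hω]
    linarith
  have c4 : 4 * K * (C₁ + 1) / 2 ^ (N + d) ≤ ε / 2 ^ N := by
    rw [div_le_div_iff₀ hpM (by positivity)]
    have : 4 * K * (C₁ + 1) * 2 ^ N / ε ≤ 2 ^ (N + d) := by linarith
    rw [div_le_iff₀ hε] at this
    linarith
  obtain ⟨k₀, κ, hκ, hB⟩ := hB b k₁ (by omega)
  set G := N + d + k₀ + 1 with hG
  have hpG : (0:ℝ) < κ / 2 ^ (N + d + k₀) := by positivity
  -- the tolerances
  obtain ⟨δ₁, hδ₁, hin⟩ := inv_close hR' φ hXc hρR hpG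
  have hown : ∀ e : Idx × Fin 3, ∃ δ > 0, edge v e ⊆ C →
      ∀ {O Λ : Set V} (h : ConHomeo O Λ), IsOpen O → edge v e ⊆ O → MapsTo h.toFun O R' →
      (∀ x ∈ edge v e, ‖h.toFun x - φ.toFun x‖ ≤ δ) →
      eInt v e (fun x => ENNReal.ofReal
        ‖lineDeriv ℝ h.toFun x (ev e.2) - lineDeriv ℝ φ.toFun x (ev e.2)‖) ≤
          ENNReal.ofReal δ →
      eInt v e (fun x => ENNReal.ofReal
        ‖lineDeriv ℝ (fun y => φ.invFun (h.toFun y)) x (ev e.2) - ev e.2‖) ≤
          ENNReal.ofReal (κ / 2 ^ (N + d + k₀)) := by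
    intro e
    by_cases he : edge v e ⊆ C
    · obtain ⟨δ, hδ, H⟩ := edge_own hR hR' φ (he.trans hC) hpG
      exact ⟨δ, hδ, fun _ => H⟩
    · exact ⟨1, one_pos, fun h => absurd h he⟩
  choose δe hδe hown using hown
  obtain ⟨δ₂, hδ₂, hδ₂'⟩ := exists_pos_le (finite_gen v N m G α) δe fun e _ => hδe e
  set δ₃ : ℝ := ε / 2 ^ N / 2 / (2 ^ (k₀ + 1) * (2 ^ d + 2)) with hδ₃
  have hδ₃0 : 0 < δ₃ := by positivity
  refine ⟨G, min δ₁ (min δ₂ δ₃), by omega, lt_min hδ₁ (lt_min hδ₂ hδ₃0),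
    fun Ω Λ h hΩ hΛ hRΩ hR'Λ hΩb hcl hed => ?_⟩
  set δ := min δ₁ (min δ₂ δ₃) with hδ
  have hδ0 : 0 < δ := lt_min hδ₁ (lt_min hδ₂ hδ₃0)
  have d1 : δ ≤ δ₁ := min_le_left _ _
  have d2 : δ ≤ δ₂ := (min_le_right _ _).trans (min_le_left _ _)
  have d3 : δ ≤ δ₃ := (min_le_right _ _).trans (min_le_right _ _)
  -- the open set `O`
  set O : Set V := Ω ∩ h.toFun ⁻¹' R' with hO
  have hOo : IsOpen O := h.cont.isOpen_inter_preimage hΩ hR'
  have hOΩ : O ⊆ Ω := inter_subset_left
  have hXO : X ⊆ O := fun x hx => ⟨hRΩ (hρR hx), (hin x hx _ ((hcl x (hρR hx)).trans d1)).1⟩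
  have hCO : C ⊆ O := hCX.trans hXO
  have hOimg : h.toFun '' O = R' := by
    apply Subset.antisymm
    · rintro _ ⟨x, hx, rfl⟩
      exact hx.2
    · intro y hy
      have h1 := h.right_inv (hR'Λ hy)
      exact ⟨h.invFun y, ⟨h.mapsTo_inv (hR'Λ hy), by rw [mem_preimage, h1]; exact hy⟩, h1⟩
  let hr : ConHomeo O R' := (h.restr (_root_.P073.IsOpen.conicalSet hOo) hOΩ).cast rfl hOimg
  have hrf : hr.toFun = h.toFun := rfl
  let g : ConHomeo O R := hr.trans φ.symm
  have hg : ∀ x, g.toFun x = φ.invFun (h.toFun x) := fun x => rfl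
  have hφg : ∀ x ∈ O, φ.toFun (g.toFun x) = h.toFun x := fun x hx => φ.right_inv hx.2
  have hgO : (fun y => φ.invFun (h.toFun y)) = g.toFun := rfl
  -- the cell
  obtain ⟨g', goff, gline, gbox, gclose, ggap⟩ := hB O R g v N m α hOo hR
    (hΩb.subset hOΩ) hbN hb1 hb2 (by omega)
    (by
      rw [hM]
      refine (sbox_sub_cthickening v N m α (by positivity)).trans ?_
      exact (cthickening_mono c1 _).trans hXO)
    (by
      rw [hM]
      intro x hx
      exact (hin x (hCX hx) _ ((hcl x (hC hx)).trans d1)).2)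
    (by
      rw [hM]
      intro e he heC
      have h1 := hδ₂' e ⟨he, heC⟩
      refine hown e heC hr hOo (heC.trans hCO) (fun x hx => hx.2)
        (fun x hx => (hcl x (hC (heC hx))).trans (d2.trans h1)) ?_
      exact (hed e he heC).trans (ENNReal.ofReal_le_ofReal (d2.trans h1)))
  rw [hM] at gline gbox gclose ggap
  -- the new map
  obtain ⟨h', hh1, hh2⟩ := exists_replace hΩ hΛ hOo hOΩ h (g'.trans φ) hOimg hCc.isClosed hCO
    (fun x hx hxC => by
      show φ.toFun (g'.toFun x) = h.toFun x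
      rw [goff x hx fun hcon => hxC (obx_sub_sbox hcon), hφg x hx])
  have hh1' : ∀ x ∈ O, h'.toFun x = φ.toFun (g'.toFun x) := fun x hx => hh1 x hx
  have hoff : ∀ x ∈ Ω, x ∉ obx v N α m 0 → h'.toFun x = h.toFun x := by
    intro x hx hxo
    by_cases hxO : x ∈ O
    · rw [hh1' x hxO, goff x hxO hxo, hφg x hxO]
    · exact hh2 x hx fun hxC => hxO (hCO hxC)
  have h2M : (2:ℝ) / 2 ^ (N + d) ≤ 1 / 2 ^ N := by
    rw [pow_add, ← div_div, div_right_comm]
    refine div_le_div_of_nonneg_right ?_ (by positivity)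
    rw [div_le_one (by positivity)]
    calc (2:ℝ) = 2 ^ 1 := by norm_num
      _ ≤ 2 ^ d := pow_le_pow_right₀ (by norm_num) (by omega)
  have h2M0 : (0:ℝ) ≤ 2 / 2 ^ (N + d) := by positivity
  have hbox : ∀ x ∈ sbox v N α m (2 / 2 ^ (N + d)), h'.toFun x = φ.toFun x := by
    intro x hx
    rw [hh1' x (hCO (sbox_anti h2M0 hx)), gbox x hx]
  have hgX : ∀ x ∈ C, g'.toFun x ∈ X := by
    intro x hx
    refine mem_cthickening_of_dist_le _ x _ _ hx ?_
    rw [dist_eq_norm]
    exact (gclose x hx).trans c2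
  refine ⟨h', hoff, fun x hx => hbox x (sbox_anti h2M hx), ?_, ?_⟩
  · intro x hx
    rw [hh1' x (hCO hx), ← dist_eq_norm]
    refine (hu _ (hgX x hx) x (hCX hx) ?_).le
    rw [dist_eq_norm]
    exact (gclose x hx).trans_lt c3
  -- the edges of generation `G`
  have hGb : ∀ e : Idx × Fin 3, e.1.1 = N + d → edge v e ⊆ C →
      eInt v e (fun x => ENNReal.ofReal
        ‖lineDeriv ℝ h.toFun x (ev e.2) - lineDeriv ℝ φ.toFun x (ev e.2)‖) ≤
          ENNReal.ofReal (2 ^ (k₀ + 1) * δ) := by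
    intro e he heC
    have h1 := eInt_sub_le v e (k₀ + 1) (fun x => ENNReal.ofReal
      ‖lineDeriv ℝ h.toFun x (ev e.2) - lineDeriv ℝ φ.toFun x (ev e.2)‖)
      (s := ENNReal.ofReal δ) fun j hj => ?_
    · refine h1.trans (le_of_eq ?_)
      rw [ENNReal.ofReal_mul (by positivity), ENNReal.ofReal_pow (by norm_num)]
      simp
    · refine hed (subEdge e (k₀ + 1) j) ?_ ((S308.subEdge_sub hj).trans heC)
      show e.1.1 + (k₀ + 1) = G
      rw [he, hG]
      ring
  set s : ℝ := 2 ^ (k₀ + 1) * δ with hs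
  set T : ℝ := K * (C₁ / 2 ^ (N + d)) + (s + K * (1 / 2 ^ (N + d))) with hT
  have hs0 : 0 ≤ s := by positivity
  have hT0 : 0 ≤ T := by positivity
  -- the edges of generation `N`
  have hNe : ∀ e : Idx × Fin 3, e.1.1 = N → edge v e ⊆ Ω →
      eInt v e (fun x => ENNReal.ofReal
        ‖lineDeriv ℝ h'.toFun x (ev e.2) - lineDeriv ℝ h.toFun x (ev e.2)‖) ≤
          ENNReal.ofReal (ε / 2 ^ N) := by
    intro e he heΩ
    by_cases hmeet : (edge v e ∩ obx v N α m 0).Nonempty
    swap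
    · rw [eInt_zero_of_eq fun x hx => hoff x (heΩ hx) fun hxo => hmeet ⟨x, hx, hxo⟩]
      exact zero_le
    have heC : edge v e ⊆ C := by
      have := edge_sub_sbox (d := 0) (c := 0) (m := m) (α := α) (e := e) (v := v) (N := N)
        (by rw [he, add_zero]) (by simpa using hmeet)
      simpa using this
    have hsub : ∀ j < 2 ^ d, eInt v (subEdge e d j) (fun x => ENNReal.ofReal
        ‖lineDeriv ℝ h'.toFun x (ev e.2) - lineDeriv ℝ h.toFun x (ev e.2)‖) ≤
        ENNReal.ofReal s +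
        ((if ((j : ℕ) : ℤ) = 2 ^ d * (α e.2 - e.1.2 e.2) + 1 then ENNReal.ofReal T else 0) +
        (if ((j : ℕ) : ℤ) = 2 ^ d * (α e.2 + m - e.1.2 e.2) - 2 then ENNReal.ofReal T else 0)) := by
      intro j hj
      set e₂ := subEdge e d j with he₂
      have hk2 : e₂.2 = e.2 := rfl
      have hg2 : e₂.1.1 = N + d := by
        show e.1.1 + d = N + d
        rw [he]
      have hs2 : edge v e₂ ⊆ edge v e := S308.subEdge_sub hj
      have hs2C : edge v e₂ ⊆ C := hs2.trans heC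
      by_cases hc1 : (edge v e₂ ∩ obx v N α m (1 / 2 ^ (N + d))).Nonempty
      swap
      · have h1 : eInt v e₂ (fun x => ENNReal.ofReal
            ‖lineDeriv ℝ h'.toFun x (ev e₂.2) - lineDeriv ℝ h.toFun x (ev e₂.2)‖) = 0 := by
          refine eInt_zero_of_eq fun x hx => ?_
          have hxO := hCO (hs2C hx)
          rw [hh1' x hxO, gline e he heC x (hs2 hx) fun hcon => hc1 ⟨x, hx, hcon⟩, hφg x hxO]
        rw [hk2] at h1
        rw [h1]
        exact zero_le
      have hs3 : edge v e₂ ⊆ sbox v N α m (1 / 2 ^ (N + d)) := by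
        have := edge_sub_sbox (d := d) (c := 1) (m := m) (α := α) (e := e₂) (v := v) (N := N) hg2
          (by simpa using hc1)
        simpa using this
      by_cases hc2 : (edge v e₂ ∩ obx v N α m (2 / 2 ^ (N + d))).Nonempty
      · have hs4 : edge v e₂ ⊆ sbox v N α m (2 / 2 ^ (N + d)) := by
          have := edge_sub_sbox (d := d) (c := 2) (m := m) (α := α) (e := e₂) (v := v) (N := N)
            hg2 (by simpa using hc2)
          simpa using this
        have h1 := eInt_congr_edge (fun x hx => hbox x (hs4 hx))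
          (fun x w => ENNReal.ofReal ‖w - lineDeriv ℝ h.toFun x (ev e₂.2)‖)
        have h2 := hGb e₂ hg2 hs2C
        rw [hk2] at h1 h2
        refine le_trans (le_of_eq h1) ?_
        refine le_trans ?_ le_self_add
        refine le_trans (le_of_eq ?_) h2
        simp_rw [norm_sub_rev]
      · -- the shell
        have hpos := gap_pos he hd2 hmeet hs3 hc2
        have h1 := ggap e he heC e₂ hg2 rfl hs2 hs3
          (Set.disjoint_iff_inter_eq_empty.2 (not_nonempty_iff_eq_empty.1 hc2))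
        have h2 := hK g' hOo (hs2C.trans hCO) fun x hx => hgX x (hs2C hx)
        have h3 := hK (ConHomeo.refl (_root_.P073.IsOpen.conicalSet hR)) (v := v) (e := e₂) hR (hs2C.trans hC)
          fun x hx => hCX (hs2C hx)
        have h4 : eInt v e₂ (fun x => ENNReal.ofReal ‖lineDeriv ℝ h'.toFun x (ev e₂.2)‖) ≤
            ENNReal.ofReal (K * (C₁ / 2 ^ (N + d))) := by
          have h5 := eInt_congr_edge (h := fun y => φ.toFun (g'.toFun y)) (h' := h'.toFun)
            (v := v) (e := e₂) (fun x hx => hh1' x (hCO (hs2C hx)))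
            (fun _ w => ENNReal.ofReal ‖w‖)
          rw [h5]
          refine h2.trans ?_
          rw [ENNReal.ofReal_mul hK0]
          gcongr
        have h6 : eInt v e₂ (fun x => ENNReal.ofReal ‖lineDeriv ℝ φ.toFun x (ev e₂.2)‖) ≤
            ENNReal.ofReal (K * (1 / 2 ^ (N + d))) := by
          refine h3.trans ?_
          rw [ENNReal.ofReal_mul hK0]
          gcongr
          have := eInt_id v e₂
          rw [hg2] at this
          exact this
        have h7 := eInt_tri3 h'.toFun h.toFun φ.toFun v e₂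
        have h8 : eInt v e₂ (fun x => ENNReal.ofReal
            ‖lineDeriv ℝ h'.toFun x (ev e₂.2) - lineDeriv ℝ h.toFun x (ev e₂.2)‖) ≤
            ENNReal.ofReal T := by
          refine h7.trans ?_
          rw [hT, ENNReal.ofReal_add (by positivity) (by positivity),
            ENNReal.ofReal_add hs0 (by positivity)]
          exact add_le_add h4 (add_le_add (hGb e₂ hg2 hs2C) h6)
        rw [hk2] at h8
        refine h8.trans ?_
        refine le_trans ?_ le_add_self
        rcases hpos with hp | hp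
        · rw [if_pos hp]
          exact le_self_add
        · rw [if_pos hp]
          exact le_add_self
    refine (eInt_le_sum (edge_eq_sub v e d) _).trans ?_
    refine (Finset.sum_le_sum fun j hj => hsub j (Finset.mem_range.1 hj)).trans ?_
    rw [Finset.sum_add_distrib, Finset.sum_add_distrib, Finset.sum_const, Finset.card_range,
      nsmul_eq_mul]
    refine (add_le_add le_rfl (add_le_add (sum_one _ _ _) (sum_one _ _ _))).trans ?_
    have e1 : ((2 ^ d : ℕ) : ℝ≥0∞) = ENNReal.ofReal (2 ^ d) := by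
      rw [ENNReal.ofReal_pow (by norm_num)]
      simp
    rw [e1, ← ENNReal.ofReal_mul (by positivity), ← ENNReal.ofReal_add hT0 hT0,
      ← ENNReal.ofReal_add (by positivity) (by positivity)]
    apply ENNReal.ofReal_le_ofReal
    have e2 : (2 ^ d + 2) * s ≤ ε / 2 ^ N / 2 := by
      have h1 : s ≤ 2 ^ (k₀ + 1) * δ₃ := by rw [hs]; gcongr
      calc (2 ^ d + 2) * s ≤ (2 ^ d + 2) * (2 ^ (k₀ + 1) * δ₃) := by gcongr
        _ = ε / 2 ^ N / 2 := by
          rw [hδ₃]
          field_simp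
    have e3 : T = K * (C₁ + 1) / 2 ^ (N + d) + s := by rw [hT]; ring
    have e4 : 4 * K * (C₁ + 1) / 2 ^ (N + d) = 4 * (K * (C₁ + 1) / 2 ^ (N + d)) := by ring
    rw [e4] at c4
    rw [e3]
    nlinarith
  -- all edges
  intro e he heΩ
  obtain ⟨c, hc⟩ := Nat.exists_eq_add_of_le he
  have h1 := eInt_sub_le v e c (fun x => ENNReal.ofReal
    ‖lineDeriv ℝ h'.toFun x (ev e.2) - lineDeriv ℝ h.toFun x (ev e.2)‖)
    (s := ENNReal.ofReal (ε / 2 ^ N)) fun j hj =>
      hNe (subEdge e c j) (by show e.1.1 + c = N; omega) ((S308.subEdge_sub hj).trans heΩ)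
  refine h1.trans ?_
  have e1 : (2:ℝ≥0∞) ^ c = ENNReal.ofReal (2 ^ c) := by
    rw [ENNReal.ofReal_pow (by norm_num)]
    simp
  rw [e1, ← ENNReal.ofReal_mul (by positivity)]
  apply ENNReal.ofReal_le_ofReal
  have h2 : (2:ℝ) ^ c ≤ 2 ^ N := pow_le_pow_right₀ (by norm_num) (by omega)
  calc (2:ℝ) ^ c * (ε / 2 ^ N) ≤ 2 ^ N * (ε / 2 ^ N) := by gcongr
    _ = ε := by field_simp

end Vale.Agent.P073.H605
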