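import Vale.Agent.P073.H605.MBU
import Vale.Agent.P073.H805.FB
import Vale.Agent.P073.H73.K2A

/-!
# P073, H605: **[GAM]** one product structure for all given cells, vertical on protected cells

`u` is a coordinate of the map, `Q` the cells, `X` the other sets of the mesh, `T` the given cells,
`P` the protected cells; on a protected cell `u` is an affine function of the coordinate `j`.
In the region `O i` of a protected cell only cells `k ∉ T` touch it, and all sets of the mesh are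
boxes; `D i ⊆ O i` is the region where the fibres will be vertical.
-/

open Set Metric Topology Filter

namespace P073.H605

open P073 P073.TR P073.H936 P073.H805
open Vale.Agent.P073.St (V)

variable {ι κ : Type*}

/-- input of [GAM] -/
structure GamIn (u : V → ℝ) (Q : ι → Set V) (X : κ → Set V) (T P : Set ι) (j : Fin 3)
    (O D : ι → Set V) (a b : ℝ) : Prop where
  fin : T.Finite
  lf : ∀ i ∈ T, ∀ x ∈ Q i, ∃ U ∈ 𝓝 x, {m : ι ⊕ κ | (Sum.elim Q X m ∩ U).Nonempty}.Finite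
  cover : ∀ i ∈ T, ∀ x ∈ Q i, ∀ᶠ y in 𝓝 x, ∃ k, y ∈ Q k
  cl : ∀ m, IsClosed (Sum.elim Q X m)
  cpt : ∀ i ∈ T, IsCompact (Q i)
  cont : ContinuousOn u (⋃ i ∈ T, Q i)
  con : ConicalOn u (⋃ i ∈ T, Q i)
  reg : ∀ i ∈ T, ∀ x ∈ Q i, u x ∈ Icc a b → Reg u (Sum.elim Q X) x
  aff : ∀ i ∈ T, i ∈ P → ∃ α β : ℝ, β ≠ 0 ∧ ∀ x ∈ Q i, u x = α + β * x j
  dis : ∀ i ∈ T, i ∈ P → ∀ i' ∈ T, i' ∈ P → i ≠ i' → Disjoint (Q i) (Q i')
  Oo : ∀ i, IsOpen (O i)
  Dcl : ∀ i, IsClosed (D i)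
  DO : ∀ i ∈ T, i ∈ P → ∀ x ∈ Q i, x ∈ D i → x ∈ O i
  Dj : ∀ i, ∀ x s, x ∈ D i → Function.update x j s ∈ D i
  sep : ∀ i ∈ T, i ∈ P → ∀ x ∈ Q i, u x ∈ Icc a b → x ∈ O i → ∀ k ∈ T, x ∈ Q k → k = i
  far : ∀ i ∈ T, i ∈ P → ∀ x ∈ Q i, u x ∈ Icc a b → x ∈ O i → ∀ k ∉ T, x ∈ Q k →
    ∀ k' ∈ T, k' ≠ i → Disjoint (Q i ∩ Q k) (Q k')
  box : ∀ i ∈ T, i ∈ P → ∀ x ∈ Q i, u x ∈ Icc a b → x ∈ O i → ∀ m, x ∈ Sum.elim Q X m →
    ∃ lo hi : V, Sum.elim Q X m = Icc lo hi

/-- the family of the product structure: the given region, the mesh, and the vertical lines -/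
def gamF (Q : ι → Set V) (X : κ → Set V) (T P : Set ι) (j : Fin 3) (D : ι → Set V) :
    Option (ι ⊕ κ) ⊕ (ι × V) → Set V
  | Sum.inl none => ⋃ i ∈ T, Q i
  | Sum.inl (some m) => Sum.elim Q X m
  | Sum.inr (i, p) => {y | i ∈ T ∧ i ∈ P ∧ y ∈ Q i ∧ y ∈ D i ∧ ∀ k, k ≠ j → y k = p k}

/-- both end points of small moves are in a given neighbourhood -/
theorem exists_small_move {x : V} {σ : ℝ →ₗ[ℝ] V} {p : V → Prop} (h : ∀ᶠ y in 𝓝 x, p y) :
    ∃ r > 0, ∀ w : V, ∀ s : ℝ, ‖w‖ < r → ‖s‖ < r → p (x + w) ∧ p (x + w + σ s) := by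
  obtain ⟨ε, hε, hb⟩ := Metric.eventually_nhds_iff_ball.1 h
  have hσ : Continuous σ := σ.continuous_of_finiteDimensional
  obtain ⟨δ, hδ, hδ'⟩ := Metric.continuous_iff.1 hσ 0 (ε / 2) (by positivity)
  refine ⟨min (ε / 2) δ, lt_min (by positivity) hδ, fun w s hw hs => ⟨hb _ ?_, hb _ ?_⟩⟩
  · rw [mem_ball, dist_eq_norm, add_sub_cancel_left]
    exact (hw.trans_le (min_le_left _ _)).trans (by linarith)
  · rw [mem_ball, dist_eq_norm, show x + w + σ s - x = w + σ s by abel]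
    have h1 := hδ' s (by rw [dist_eq_norm, sub_zero]; exact hs.trans_le (min_le_right _ _))
    rw [map_zero, dist_eq_norm, sub_zero] at h1
    have h2 := hw.trans_le (min_le_left (ε / 2) δ)
    linarith [norm_add_le w (σ s)]

/-- a flow box from germs -/
theorem flowBox_of_germ {μ : Type*} {u : V → ℝ} {M : μ → Set V} {x : V} {σ : ℝ →ₗ[ℝ] V}
    {p : V → Prop} (hp : ∀ᶠ y in 𝓝 x, p y)
    (h : ∀ y s, p y → p (y + σ s) → u (y + σ s) = u y + s ∧ ∀ m, (y + σ s ∈ M m ↔ y ∈ M m)) :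
    ∃ (σ : ℝ →ₗ[ℝ] V) (r : ℝ), FlowBox u M x σ r := by
  obtain ⟨r, hr, H⟩ := exists_small_move (σ := σ) hp
  exact ⟨σ, r, hr, fun w s hw hs => (h _ _ (H w s hw hs).1 (H w s hw hs).2).1,
    fun m w s hw hs => (h _ _ (H w s hw hs).1 (H w s hw hs).2).2 m⟩

namespace GamIn

variable {u : V → ℝ} {Q : ι → Set V} {X : κ → Set V} {T P : Set ι} {j : Fin 3}
  {O D : ι → Set V} {a b : ℝ}

theorem clQ (H : GamIn u Q X T P j O D a b) (i : ι) : IsClosed (Q i) := H.cl (Sum.inl i)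

theorem isCompact_C (H : GamIn u Q X T P j O D a b) : IsCompact (⋃ i ∈ T, Q i) :=
  H.fin.isCompact_biUnion H.cpt

/-- near a point of the region only the sets through the point -/
theorem near_mem (H : GamIn u Q X T P j O D a b) {i : ι} (hi : i ∈ T) {x : V} (hx : x ∈ Q i) :
    ∀ᶠ y in 𝓝 x, ∀ m, y ∈ Sum.elim Q X m → x ∈ Sum.elim Q X m := by
  obtain ⟨U, hU, hf⟩ := H.lf i hi x hx
  have h1 : ∀ᶠ y in 𝓝 x, ∀ m ∈ {m : ι ⊕ κ | (Sum.elim Q X m ∩ U).Nonempty},
      y ∈ Sum.elim Q X m → x ∈ Sum.elim Q X m := by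
    rw [hf.eventually_all]
    intro m _
    by_cases hm : x ∈ Sum.elim Q X m
    · exact Eventually.of_forall fun y _ => hm
    · filter_upwards [(H.cl m).isOpen_compl.mem_nhds hm] with y hy hy'
      exact absurd hy' hy
  filter_upwards [h1, hU] with y hy hyU m hm
  exact hy m ⟨y, hm, hyU⟩ hm

/-- the cells outside `T` which touch the vertical region -/
def kk (_ : GamIn u Q X T P j O D a b) (i : ι) : Set ι :=
  {k | k ∉ T ∧ ∃ x ∈ Q i, u x ∈ Icc a b ∧ x ∈ O i ∧ x ∈ Q k}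

theorem finite_kk (H : GamIn u Q X T P j O D a b) {i : ι} (hi : i ∈ T) : (H.kk i).Finite := by
  classical
  -- local finiteness and compactness
  choose! U hU hf using fun x (hx : x ∈ Q i) => H.lf i hi x hx
  obtain ⟨F, hF, hcov⟩ := (H.cpt i hi).elim_nhds_subcover U hU
  refine ((F.finite_toSet.biUnion fun x hx => hf x (hF x hx)).preimage
    (Sum.inl_injective.injOn (s := univ) |>.mono (subset_univ _))).subset ?_
  rintro k ⟨-, x, hx, -, -, hxk⟩
  obtain ⟨y, hy, hxy⟩ := mem_iUnion₂.1 (hcov hx)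
  exact mem_iUnion₂.2 ⟨y, hy, x, hxk, hxy⟩

/-- the width of the neighbourhood of a protected cell -/
theorem exists_width (H : GamIn u Q X T P j O D a b) {i : ι} (hi : i ∈ T) (hiP : i ∈ P) :
    ∃ ε > 0, (∀ i' ∈ T, i' ∈ P → i' ≠ i → Disjoint (cthickening ε (Q i)) (Q i')) ∧
      ∀ k ∈ H.kk i, ∀ i' ∈ T, i' ≠ i → Disjoint (cthickening ε (Q i)) (Q k ∩ Q i') := by
  classical
  set F : Set V := (⋃ i' ∈ {i' | i' ∈ T ∧ i' ∈ P ∧ i' ≠ i}, Q i') ∪
    ⋃ q ∈ (H.kk i) ×ˢ {i' | i' ∈ T ∧ i' ≠ i}, (Q q.1 ∩ Q q.2) with hF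
  have hFc : IsClosed F := by
    refine IsClosed.union ?_ ?_
    · exact (H.fin.subset fun i' h => h.1).isClosed_biUnion fun i' _ => H.clQ i'
    · exact ((H.finite_kk hi).prod (H.fin.subset fun i' h => h.1)).isClosed_biUnion
        fun q _ => (H.clQ _).inter (H.clQ _)
  have hdis : Disjoint (Q i) F := by
    rw [hF, disjoint_union_right]
    refine ⟨disjoint_iUnion₂_right.2 fun i' h => H.dis i hi hiP i' h.1 h.2.1 h.2.2.symm,
      disjoint_iUnion₂_right.2 ?_⟩
    rintro ⟨k, i'⟩ ⟨⟨hk, x, hx, hxu, hxO, hxk⟩, hi', hne⟩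
    have h1 := H.far i hi hiP x hx hxu hxO k hk hxk i' hi' hne
    rw [Set.disjoint_left] at h1 ⊢
    exact fun y hy hy' => h1 ⟨hy, hy'.1⟩ hy'.2
  obtain ⟨ε, hε, h1⟩ := hdis.exists_cthickenings (H.cpt i hi) hFc
  have h2 : Disjoint (cthickening ε (Q i)) F := h1.mono_right (self_subset_cthickening F)
  refine ⟨ε, hε, fun i' h' hP' hne => h2.mono_right ?_, fun k hk i' h' hne => h2.mono_right ?_⟩
  · exact subset_union_of_subset_left (subset_biUnion_of_mem
      (u := fun i' => Q i') (show i' ∈ {i' | i' ∈ T ∧ i' ∈ P ∧ i' ≠ i} from ⟨h', hP', hne⟩)) _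
  · exact subset_union_of_subset_right (subset_biUnion_of_mem
      (u := fun q : ι × ι => Q q.1 ∩ Q q.2)
      (show (k, i') ∈ (H.kk i) ×ˢ {i' | i' ∈ T ∧ i' ≠ i} from ⟨hk, h', hne⟩)) _

/-- a line of the family -/
theorem mem_line {i : ι} {p y : V} : y ∈ gamF Q X T P j D (Sum.inr (i, p)) ↔
    i ∈ T ∧ i ∈ P ∧ y ∈ Q i ∧ y ∈ D i ∧ ∀ k, k ≠ j → y k = p k := Iff.rfl

/-- **[GAM], the function and its flow boxes.** -/
theorem exists_fun (H : GamIn u Q X T P j O D a b) :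
    ∃ u' : V → ℝ, (∀ x ∈ ⋃ i ∈ T, Q i, u' x = u x) ∧
      ∀ x ∈ bnd (⋃ i ∈ T, Q i) u a b,
        ∃ (σ : ℝ →ₗ[ℝ] V) (r : ℝ), FlowBox u' (gamF Q X T P j D) x σ r := by
  classical
  choose! ε hε hε1 hε2 using fun i (h : i ∈ T ∧ i ∈ P) => H.exists_width h.1 h.2
  choose! α β hβ hαβ using fun i (h : i ∈ T ∧ i ∈ P) => H.aff i h.1 h.2
  set C : Set V := ⋃ i ∈ T, Q i with hC
  set R : ι → Set V := fun i => {y | (i ∈ T ∧ i ∈ P) ∧ y ∈ thickening (ε i) (Q i) ∧
    (∃ k ∈ H.kk i, y ∈ Q k) ∧ y ∉ C} with hR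
  set u' : V → ℝ := fun y => if h : ∃ i, y ∈ R i then α h.choose + β h.choose * y j else u y
    with hu'
  have hCc : IsClosed C := H.isCompact_C.isClosed
  have hRC : ∀ i y, y ∈ R i → y ∉ C := fun i y hy => hy.2.2.2
  have hu1 : ∀ y, (∀ i, y ∉ R i) → u' y = u y := fun y hy => by
    simp only [hu']
    rw [dif_neg]
    rintro ⟨i, hi⟩
    exact hy i hi
  have hu2 : ∀ i y, y ∈ R i → (∀ i', y ∈ R i' → i' = i) → u' y = α i + β i * y j := by
    intro i y hy huniq
    have h : ∃ i, y ∈ R i := ⟨i, hy⟩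
    simp only [hu']
    rw [dif_pos h, huniq _ h.choose_spec]
  refine ⟨u', fun x hx => hu1 x fun i hi => hRC i x hi hx, ?_⟩
  rintro x ⟨hxC, hxu⟩
  obtain ⟨i₀, hi₀T, hxi₀⟩ := mem_iUnion₂.1 hxC
  -- the protected cell at `x`
  have hother : ∀ i, i ∈ T → i ∈ P → x ∈ Q i → ∀ i', i' ≠ i → ∀ᶠ y in 𝓝 x, y ∉ R i' := by
    intro i hi hiP hx i' hne
    by_cases h' : i' ∈ T ∧ i' ∈ P
    · have h1 : x ∉ cthickening (ε i') (Q i') := fun hh =>
        (Set.disjoint_left.1 (hε1 i' h' i hi hiP hne.symm)) hh hx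
      filter_upwards [isClosed_cthickening.isOpen_compl.mem_nhds h1] with y hy hyR
      exact hy (thickening_subset_cthickening _ _ hyR.2.1)
    · exact Eventually.of_forall fun y hy => h' hy.1
  have hnear := H.near_mem hi₀T hxi₀
  have hreg := H.reg i₀ hi₀T x hxi₀ hxu
  obtain ⟨σ₀, r₀, hFB⟩ := hreg
  -- the direction
  have hdir : ∀ i, i ∈ T ∧ i ∈ P → x ∈ Q i → ∀ s : ℝ, β i * (σ₀ s) j = s := by
    intro i hi hx
    have h1 : ∀ s : ℝ, ‖s‖ < r₀ → β i * (σ₀ s) j = s := by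
      intro s hs
      have h2 := hFB.add 0 s (by rw [norm_zero]; exact hFB.pos) hs
      have h3 := (hFB.iff (Sum.inl i) 0 s (by rw [norm_zero]; exact hFB.pos) hs).2
        (by rw [add_zero]; exact hx)
      rw [add_zero] at h2 h3
      rw [hαβ i hi _ h3, hαβ i hi _ hx, Pi.add_apply] at h2
      linarith
    intro s
    have h2 := h1 (r₀ / 2) (by rw [Real.norm_eq_abs, abs_of_pos (half_pos hFB.pos)]
                               linarith [hFB.pos])
    have h3 : σ₀ s = (s / (r₀ / 2)) • σ₀ (r₀ / 2) := by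
      rw [← map_smul, smul_eq_mul, div_mul_cancel₀ _ (half_pos hFB.pos).ne']
    rw [h3, Pi.smul_apply, smul_eq_mul]
    have h4 : β i * (s / (r₀ / 2) * (σ₀ (r₀ / 2)) j) = s / (r₀ / 2) * (β i * (σ₀ (r₀ / 2)) j) := by
      ring
    rw [h4, h2, div_mul_cancel₀ _ (half_pos hFB.pos).ne']
  by_cases hB : ∃ i, i ∈ T ∧ i ∈ P ∧ x ∈ Q i ∧ x ∈ O i
  · -- the vertical region
    obtain ⟨i, hiT, hiP, hxi, hxO⟩ := hB
    have hi : i ∈ T ∧ i ∈ P := ⟨hiT, hiP⟩
    -- other cells of `T`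
    have hT' : ∀ᶠ y in 𝓝 x, ∀ k ∈ T, y ∈ Q k → k = i := by
      filter_upwards [hnear] with y hy k hk hyk
      exact H.sep i hiT hiP x hxi hxu hxO k hk (hy (Sum.inl k) hyk)
    have hCi : ∀ᶠ y in 𝓝 x, (y ∈ C ↔ y ∈ Q i) := by
      filter_upwards [hT'] with y hy
      constructor
      · intro h
        obtain ⟨k, hk, hyk⟩ := mem_iUnion₂.1 h
        have := hy k hk hyk
        rwa [this] at hyk
      · exact fun h => mem_iUnion₂.2 ⟨i, hiT, h⟩
    have hOth : ∀ᶠ y in 𝓝 x, ∀ i', i' ≠ i → y ∉ R i' := by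
      have h1 : ∀ᶠ y in 𝓝 x, ∀ i' ∈ T, i' ≠ i → y ∉ R i' := by
        rw [H.fin.eventually_all]
        intro i' _
        by_cases hne : i' = i
        · exact Eventually.of_forall fun y h => absurd hne h
        · filter_upwards [hother i hiT hiP hxi i' hne] with y hy _
          exact hy
      filter_upwards [h1] with y hy i' hne hyR
      exact hy i' hyR.1.1 hne hyR
    -- values
    have hval : ∀ᶠ y in 𝓝 x, u' y = α i + β i * y j := by
      have hth : thickening (ε i) (Q i) ∈ 𝓝 x :=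
        isOpen_thickening.mem_nhds (self_subset_thickening (hε i hi) _ hxi)
      filter_upwards [hCi, hOth, hnear, H.cover i hiT x hxi, hth] with y h1 h2 h3 h4 h5
      by_cases hy : y ∈ Q i
      · rw [hu1 y fun i' h' => hRC i' y h' (h1.2 hy), hαβ i hi y hy]
      · have hyC : y ∉ C := fun h => hy (h1.1 h)
        obtain ⟨k, hk⟩ := h4
        have hxk : x ∈ Q k := h3 (Sum.inl k) hk
        have hkT : k ∉ T := fun h => hyC (mem_iUnion₂.2 ⟨k, h, hk⟩)
        refine hu2 i y ⟨hi, h5, ⟨k, ⟨hkT, x, hxi, hxu, hxO, hxk⟩, hk⟩, hyC⟩ ?_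
        intro i' h'
        by_contra hne
        exact h2 i' hne h'
    -- the direction `j`
    set σ : ℝ →ₗ[ℝ] V := (LinearMap.id : ℝ →ₗ[ℝ] ℝ).smulRight ((β i)⁻¹ • (Pi.single j (1:ℝ) : V))
      with hσ
    have hσs : ∀ s : ℝ, σ s = Pi.single j (s * (β i)⁻¹) := by
      intro s
      rw [hσ]
      ext k
      by_cases hk : k = j
      · subst hk; simp
      · simp [hk]
    -- sets
    have hstrict : ∀ m, x ∈ Sum.elim Q X m → ∃ lo hi : V, Sum.elim Q X m = Icc lo hi ∧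
        lo j < x j ∧ x j < hi j := by
      intro m hm
      obtain ⟨lo, hi', hbox⟩ := H.box i hiT hiP x hxi hxu hxO m hm
      have h1 : ∀ s : ℝ, ‖s‖ < r₀ → x + σ₀ s ∈ Icc lo hi' := by
        intro s hs
        have h3 := (hFB.iff m 0 s (by rw [norm_zero]; exact hFB.pos) hs).2
          (by rw [add_zero]; exact hm)
        rwa [add_zero, hbox] at h3
      have hr2 : ‖r₀ / 2‖ < r₀ := by
        rw [Real.norm_eq_abs, abs_of_pos (half_pos hFB.pos)]; linarith [hFB.pos]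
      have h2 := h1 _ hr2
      have h3 := h1 (-(r₀ / 2)) (by rw [norm_neg]; exact hr2)
      have h4 := hdir i hi hxi (r₀ / 2)
      have h5 : σ₀ (-(r₀ / 2)) j = - σ₀ (r₀ / 2) j := by rw [map_neg]; rfl
      have h6 : σ₀ (r₀ / 2) j ≠ 0 := by
        intro h0
        rw [h0, mul_zero] at h4
        linarith [hFB.pos]
      have e1 := h2.1 j
      have e2 := h2.2 j
      have e3 := h3.1 j
      have e4 := h3.2 j
      rw [Pi.add_apply] at e1 e2 e3 e4
      rw [h5] at e3 e4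
      rcases lt_or_gt_of_ne h6 with h7 | h7
      · exact ⟨lo, hi', hbox, by linarith, by linarith⟩
      · exact ⟨lo, hi', hbox, by linarith, by linarith⟩
    have hsets : ∀ᶠ y in 𝓝 x, ∀ m, x ∈ Sum.elim Q X m → ∃ lo hi : V,
        Sum.elim Q X m = Icc lo hi ∧ lo j < y j ∧ y j < hi j := by
      obtain ⟨U, hU, hf⟩ := H.lf i₀ hi₀T x hxi₀
      have h1 : ∀ᶠ y in 𝓝 x, ∀ m ∈ {m : ι ⊕ κ | (Sum.elim Q X m ∩ U).Nonempty},
          x ∈ Sum.elim Q X m → ∃ lo hi : V,
            Sum.elim Q X m = Icc lo hi ∧ lo j < y j ∧ y j < hi j := by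
        rw [hf.eventually_all]
        intro m _
        by_cases hm : x ∈ Sum.elim Q X m
        · obtain ⟨lo, hi', hbox, h2, h3⟩ := hstrict m hm
          have hcj : Continuous fun y : V => y j := continuous_apply j
          filter_upwards [hcj.continuousAt.eventually (lt_mem_nhds h2),
            hcj.continuousAt.eventually (gt_mem_nhds h3)] with y h4 h5 _
          exact ⟨lo, hi', hbox, h4, h5⟩
        · exact Eventually.of_forall fun y h => absurd h hm
      filter_upwards [h1] with y hy m hm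
      exact hy m ⟨x, hm, mem_of_mem_nhds hU⟩ hm
    have hmv : ∀ y s, (∀ m, x ∈ Sum.elim Q X m → ∃ lo hi : V,
        Sum.elim Q X m = Icc lo hi ∧ lo j < y j ∧ y j < hi j) →
        (∀ m, x ∈ Sum.elim Q X m → ∃ lo hi : V,
        Sum.elim Q X m = Icc lo hi ∧ lo j < (y + σ s) j ∧ (y + σ s) j < hi j) →
        (∀ m, y ∈ Sum.elim Q X m → x ∈ Sum.elim Q X m) →
        (∀ m, y + σ s ∈ Sum.elim Q X m → x ∈ Sum.elim Q X m) →
        ∀ m, (y + σ s ∈ Sum.elim Q X m ↔ y ∈ Sum.elim Q X m) := by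
      intro y s h1 h2 h3 h4 m
      by_cases hm : x ∈ Sum.elim Q X m
      · obtain ⟨lo, hi', hbox, e1, e2⟩ := h1 m hm
        obtain ⟨lo2, hi2, hbox2, e3, e4⟩ := h2 m hm
        have hoff : ∀ k, k ≠ j → (y + σ s) k = y k := by
          intro k hk
          rw [Pi.add_apply, hσs, Pi.single_eq_of_ne hk, add_zero]
        constructor
        · intro h
          rw [hbox2] at h
          rw [hbox]
          have hx2 : ∀ k, k ≠ j → lo k ≤ y k ∧ y k ≤ hi' k := by
            intro k hk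
            have h5 : y + σ s ∈ Icc lo hi' := by rw [← hbox, hbox2]; exact h
            rw [← hoff k hk]
            exact ⟨h5.1 k, h5.2 k⟩
          refine ⟨fun k => ?_, fun k => ?_⟩
          · by_cases hk : k = j
            · subst hk; exact e1.le
            · exact (hx2 k hk).1
          · by_cases hk : k = j
            · subst hk; exact e2.le
            · exact (hx2 k hk).2
        · intro h
          have h5 : y ∈ Icc lo2 hi2 := by rw [← hbox2]; exact h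
          rw [hbox2]
          refine ⟨fun k => ?_, fun k => ?_⟩
          · by_cases hk : k = j
            · subst hk; exact e3.le
            · rw [hoff k hk]; exact h5.1 k
          · by_cases hk : k = j
            · subst hk; exact e4.le
            · rw [hoff k hk]; exact h5.2 k
      · exact ⟨fun h => absurd (h4 m h) hm, fun h => absurd (h3 m h) hm⟩
    have hall := hT'.and (hCi.and (hval.and (hnear.and hsets)))
    refine flowBox_of_germ (σ := σ) hall ?_
    rintro y s ⟨a1, a2, a3, a4, a5⟩ ⟨b1, b2, b3, b4, b5⟩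
    have hM := hmv y s a5 b5 a4 b4
    have hQi : (y + σ s ∈ Q i ↔ y ∈ Q i) := hM (Sum.inl i)
    refine ⟨?_, ?_⟩
    · rw [b3, a3, Pi.add_apply, hσs, Pi.single_eq_same]
      have := hβ i hi
      field_simp
      ring
    · rintro (m | ⟨i', p⟩)
      · cases m with
        | none => exact b2.trans (hQi.trans a2.symm)
        | some m => exact hM m
      · have hupd : y + σ s = Function.update y j (y j + s * (β i)⁻¹) := by
          ext k
          by_cases hk : k = j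
          · subst hk; rw [Function.update_self, Pi.add_apply, hσs, Pi.single_eq_same]
          · rw [Function.update_of_ne hk, Pi.add_apply, hσs, Pi.single_eq_of_ne hk, add_zero]
        have hupd' : y = Function.update (y + σ s) j (y j) := by
          rw [hupd, Function.update_idem, Function.update_eq_self]
        rw [mem_line, mem_line]
        constructor
        · rintro ⟨c1, c2, c3, c4, c5⟩
          have := b1 i' c1 c3
          subst this
          refine ⟨c1, c2, hQi.1 c3, ?_, fun k hk => ?_⟩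
          · rw [hupd']; exact H.Dj _ _ _ c4
          · rw [← c5 k hk, Pi.add_apply, hσs, Pi.single_eq_of_ne hk, add_zero]
        · rintro ⟨c1, c2, c3, c4, c5⟩
          have := a1 i' c1 c3
          subst this
          refine ⟨c1, c2, hQi.2 c3, ?_, fun k hk => ?_⟩
          · rw [hupd]; exact H.Dj _ _ _ c4
          · rw [← c5 k hk, Pi.add_apply, hσs, Pi.single_eq_of_ne hk, add_zero]
  · -- elsewhere: the old flow box
    push Not at hB
    have hnoD : ∀ᶠ y in 𝓝 x, ∀ i ∈ T, i ∈ P → y ∈ Q i → y ∉ D i := by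
      have h1 : ∀ᶠ y in 𝓝 x, ∀ i ∈ T, i ∈ P → y ∈ Q i → y ∉ D i := by
        rw [H.fin.eventually_all]
        intro i hiT
        by_cases hc : i ∈ P ∧ x ∈ Q i
        · have hxD : x ∉ D i := fun h => hB i hiT hc.1 hc.2 (H.DO i hiT hc.1 x hc.2 h)
          filter_upwards [(H.Dcl i).isOpen_compl.mem_nhds hxD] with y hy _ _
          exact hy
        · by_cases hP' : i ∈ P
          · have hxQ : x ∉ Q i := fun h => hc ⟨hP', h⟩
            filter_upwards [(H.clQ i).isOpen_compl.mem_nhds hxQ] with y hy _ h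
            exact absurd h hy
          · exact Eventually.of_forall fun y h => absurd h hP'
      exact h1
    -- the sets `R i` are germwise invariant
    have hgerm : ∀ᶠ y in 𝓝 x, ∀ i, i ∈ T ∧ i ∈ P → (y ∈ R i ↔ x ∈ Q i ∧
        (∃ k ∈ H.kk i, y ∈ Q k) ∧ y ∉ C) := by
      have h1 : ∀ᶠ y in 𝓝 x, ∀ i ∈ T, i ∈ P → (y ∈ R i ↔ x ∈ Q i ∧
          (∃ k ∈ H.kk i, y ∈ Q k) ∧ y ∉ C) := by
        rw [H.fin.eventually_all]
        intro i hiT
        by_cases hP' : i ∈ P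
        · have hi : i ∈ T ∧ i ∈ P := ⟨hiT, hP'⟩
          by_cases hx : x ∈ Q i
          · have hth : thickening (ε i) (Q i) ∈ 𝓝 x :=
              isOpen_thickening.mem_nhds (self_subset_thickening (hε i hi) _ hx)
            filter_upwards [hth] with y hy _
            exact ⟨fun h => ⟨hx, h.2.2.1, h.2.2.2⟩, fun h => ⟨hi, hy, h.2.1, h.2.2⟩⟩
          · -- no point of `R i` near `x`
            by_cases hcl : x ∈ cthickening (ε i) (Q i)
            · have h2 : ∀ k ∈ H.kk i, x ∉ Q k := by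
                intro k hk hxk
                have hne : i₀ ≠ i := fun h => hx (h ▸ hxi₀)
                exact (Set.disjoint_left.1 (hε2 i hi k hk i₀ hi₀T hne)) hcl ⟨hxk, hxi₀⟩
              filter_upwards [hnear] with y hy _
              refine ⟨fun h => ?_, fun h => absurd h.1 hx⟩
              obtain ⟨k, hk, hyk⟩ := h.2.2.1
              exact absurd (hy (Sum.inl k) hyk) (h2 k hk)
            · filter_upwards [isClosed_cthickening.isOpen_compl.mem_nhds hcl] with y hy _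
              exact ⟨fun h => absurd (thickening_subset_cthickening _ _ h.2.1) hy,
                fun h => absurd h.1 hx⟩
        · exact Eventually.of_forall fun y h => absurd h hP'
      filter_upwards [h1] with y hy i hi
      exact hy i hi.1 hi.2
    have hball : ∀ᶠ y in 𝓝 x, y ∈ ball x r₀ := ball_mem_nhds x hFB.pos
    obtain ⟨r, hr, hsm⟩ := exists_small_move (σ := σ₀) (hnoD.and hgerm)
    refine ⟨σ₀, min r r₀, lt_min hr hFB.pos, ?_, ?_⟩
    · intro w s hw hs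
      obtain ⟨⟨-, g1⟩, ⟨-, g2⟩⟩ := hsm w s (hw.trans_le (min_le_left _ _))
        (hs.trans_le (min_le_left _ _))
      have hw' := hw.trans_le (min_le_right r r₀)
      have hs' := hs.trans_le (min_le_right r r₀)
      have hiff : ∀ m, (x + w + σ₀ s ∈ Sum.elim Q X m ↔ x + w ∈ Sum.elim Q X m) :=
        fun m => hFB.iff m w s hw' hs'
      have hCiff : (x + w + σ₀ s ∈ C ↔ x + w ∈ C) := by
        simp only [hC, mem_iUnion₂]
        exact exists_congr fun k => exists_congr fun _ => hiff (Sum.inl k)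
      have hRiff : ∀ i, (x + w + σ₀ s ∈ R i ↔ x + w ∈ R i) := by
        intro i
        by_cases hi : i ∈ T ∧ i ∈ P
        · rw [g1 i hi, g2 i hi]
          refine and_congr Iff.rfl (and_congr ?_ (not_congr hCiff))
          exact exists_congr fun k => and_congr Iff.rfl (hiff (Sum.inl k))
        · exact ⟨fun h => absurd h.1 hi, fun h => absurd h.1 hi⟩
      by_cases hRy : ∃ i, x + w ∈ R i
      · obtain ⟨i, hyR⟩ := hRy
        have hi := hyR.1
        have hxi : x ∈ Q i := ((g1 i hi).1 hyR).1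
        have huniq : ∀ y, (∀ i, i ∈ T ∧ i ∈ P → (y ∈ R i ↔ x ∈ Q i ∧
            (∃ k ∈ H.kk i, y ∈ Q k) ∧ y ∉ C)) → ∀ i', y ∈ R i' → i' = i := by
          intro y hy i' h'
          by_contra hne
          have h2 := ((hy i' h'.1).1 h').1
          exact (Set.disjoint_left.1 (H.dis i' h'.1.1 h'.1.2 i hi.1 hi.2 hne)) h2 hxi
        rw [hu2 i _ hyR (huniq _ g1), hu2 i _ ((hRiff i).2 hyR) (huniq _ g2), Pi.add_apply,
          mul_add, hdir i hi hxi s]
        ring
      · push Not at hRy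
        rw [hu1 _ hRy, hu1 _ fun i => fun h => hRy i ((hRiff i).1 h)]
        exact hFB.add w s hw' hs'
    · rintro m w s hw hs
      obtain ⟨⟨d1, -⟩, ⟨d2, -⟩⟩ := hsm w s (hw.trans_le (min_le_left _ _))
        (hs.trans_le (min_le_left _ _))
      have hw' := hw.trans_le (min_le_right r r₀)
      have hs' := hs.trans_le (min_le_right r r₀)
      rcases m with m | ⟨i', p⟩
      · cases m with
        | none =>
          show (x + w + σ₀ s ∈ ⋃ i ∈ T, Q i) ↔ _
          simp only [gamF, mem_iUnion₂]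
          exact exists_congr fun k => exists_congr fun _ => hFB.iff (Sum.inl k) w s hw' hs'
        | some m => exact hFB.iff m w s hw' hs'
      · rw [mem_line, mem_line]
        exact ⟨fun h => absurd h.2.2.2.1 (d2 i' h.1 h.2.1 h.2.2.1),
          fun h => absurd h.2.2.2.1 (d1 i' h.1 h.2.1 h.2.2.1)⟩

end GamIn

/-- restriction of a product structure to a set of the family -/
theorem exists_restrict {E : Type*} [NormedAddCommGroup E] [NormedSpace ℝ E] {μ : Type*}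
    {C : Set E} {u : E → ℝ} {M : μ → Set E} {t a b : ℝ} (P : ProdOn C u M t a b) {m : μ}
    {Q : Set E} (hQ : M m = Q) (hQC : Q ⊆ C) (huc : ConicalOn u Q) :
    ∃ P' : ProdOn Q u M t a b, (∀ z, P'.G.toFun z = P.G.toFun z) ∧ ∀ x, P'.foot x = P.foot x := by
  have hlev : lev Q u t ⊆ lev C u t := fun x hx => ⟨hQC hx.1, hx.2⟩
  have hbnd : bnd Q u a b ⊆ bnd C u a b := fun x hx => ⟨hQC hx.1, hx.2⟩
  have himg : P.G.toFun '' (lev Q u t ×ˢ Icc a b) = bnd Q u a b := by
    ext y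
    constructor
    · rintro ⟨⟨z, s⟩, ⟨hz, hs⟩, rfl⟩
      refine ⟨?_, ?_⟩
      · rw [← hQ]
        exact (P.vert m z (hlev hz) s hs).2 (by rw [hQ]; exact hz.1)
      · rw [P.level z (hlev hz) s hs]; exact hs
    · intro hy
      have hy' := hbnd hy
      refine ⟨(P.foot y, u y), ⟨⟨?_, (P.foot_mem hy').2⟩, hy.2⟩, P.foot_eq hy'⟩
      have := (P.foot_iff hy' m).2 (by rw [hQ]; exact hy.1)
      rwa [hQ] at this
  have hc : ConicalSet (lev Q u t ×ˢ Icc a b) := (conicalSet_lev huc).prod (conicalSet_Icc a b)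
  refine ⟨⟨(P.G.restr hc (prod_mono hlev Subset.rfl)).cast rfl himg, P.mem, ?_, ?_, ?_⟩,
    fun z => rfl, fun x => rfl⟩
  · exact fun z hz s hs => P.level z (hlev hz) s hs
  · exact fun z hz => P.base z (hlev hz)
  · exact fun i z hz s hs => P.vert i z (hlev hz) s hs

namespace GamIn

variable {u : V → ℝ} {Q : ι → Set V} {X : κ → Set V} {T P : Set ι} {j : Fin 3}
  {O D : ι → Set V} {a b : ℝ}

/-- **[GAM]**, the product structure of a macroscopic interval -/
theorem exists_prod (H : GamIn u Q X T P j O D a b) {t : ℝ} (ht : t ∈ Icc a b) :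
    Nonempty (ProdOn (⋃ i ∈ T, Q i) u (gamF Q X T P j D) t a b) := by
  obtain ⟨u', hu', hbox⟩ := H.exists_fun
  have hEq : EqOn u' u (⋃ i ∈ T, Q i) := hu'
  have hlev : lev (⋃ i ∈ T, Q i) u' t = lev (⋃ i ∈ T, Q i) u t := by
    ext x
    exact and_congr_right fun hx => by rw [hEq hx]
  have hbnd : bnd (⋃ i ∈ T, Q i) u' a b = bnd (⋃ i ∈ T, Q i) u a b := by
    ext x
    exact and_congr_right fun hx => by rw [hEq hx]
  obtain ⟨R⟩ := exists_prodOn (M := gamF Q X T P j D) (t := t) (a := a) (b := b) H.isCompact_C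
    (Sum.inl none) rfl (H.cont.congr hEq) (H.con.congr hEq) ht (fun x hx => hbox x (hbnd ▸ hx))
  have hlev' : ∀ z ∈ lev (⋃ i ∈ T, Q i) u t, z ∈ lev (⋃ i ∈ T, Q i) u' t := fun z hz => by
    rw [hlev]; exact hz
  refine ⟨⟨R.G.cast (by rw [hlev]) hbnd, ht, ?_, ?_, ?_⟩⟩
  · intro z hz s hs
    have h1 := R.level z (hlev' z hz) s hs
    have h2 := (R.mem_bnd (hlev' z hz) hs).1
    show u (R.G.toFun (z, s)) = s
    rw [← hEq h2]
    exact h1
  · exact fun z hz => R.base z (hlev' z hz)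
  · exact fun i z hz s hs => R.vert i z (hlev' z hz) s hs

/-- **[GAM]**, the product structures of all sub-bands, with a uniform Lipschitz constant -/
theorem exists_gam (H : GamIn u Q X T P j O D a b) (hbx : ∀ i ∈ T, ∃ lo hi : V, Q i = Icc lo hi)
    {a' b' : ℝ} (ha : a < a') (hab : a' ≤ b') (hb : b' < b) :
    ∃ L : ℝ, 0 ≤ L ∧ ∀ t η, 0 < η → a' ≤ t - η → t + η ≤ b' →
      ∃ Γ : ConHomeo (lev (⋃ i ∈ T, Q i) u t ×ˢ Icc (-1:ℝ) 1) (band (⋃ i ∈ T, Q i) u t η),
        (∀ z ∈ lev (⋃ i ∈ T, Q i) u t, ∀ s ∈ Icc (-1:ℝ) 1, u (Γ.toFun (z, s)) = t + η * s) ∧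
        (∀ z ∈ lev (⋃ i ∈ T, Q i) u t, Γ.toFun (z, 0) = z) ∧
        (∀ m, ∀ z ∈ lev (⋃ i ∈ T, Q i) u t, ∀ s ∈ Icc (-1:ℝ) 1,
          (Γ.toFun (z, s) ∈ Sum.elim Q X m ↔ z ∈ Sum.elim Q X m)) ∧
        (∀ i ∈ T, i ∈ P → ∀ z ∈ lev (⋃ i ∈ T, Q i) u t, ∀ s ∈ Icc (-1:ℝ) 1,
          (z ∈ Q i ∧ z ∈ D i) ∨ (Γ.toFun (z, s) ∈ Q i ∧ Γ.toFun (z, s) ∈ D i) →
          ∀ k, k ≠ j → Γ.toFun (z, s) k = z k) ∧
        (∀ i ∈ T, ∀ x ∈ Q i, x ∈ band (⋃ i ∈ T, Q i) u t η → ∀ᶠ y in 𝓝[Q i] x,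
          y ∈ band (⋃ i ∈ T, Q i) u t η → ∀ s ∈ Icc (-1:ℝ) 1,
          ‖Γ.toFun ((Γ.invFun y).1, s) - Γ.toFun ((Γ.invFun x).1, s)‖ ≤ L * ‖y - x‖) ∧
        ∀ z ∈ lev (⋃ i ∈ T, Q i) u t, ∀ s ∈ Icc (-1:ℝ) 1, ∀ s' ∈ Icc (-1:ℝ) 1,
          ‖Γ.toFun (z, s) - Γ.toFun (z, s')‖ ≤ L * (η * |s - s'|) := by
  classical
  set C : Set V := ⋃ i ∈ T, Q i with hC
  obtain ⟨R⟩ := H.exists_prod (t := a') ⟨ha.le, hab.trans hb.le⟩
  have hQC : ∀ i ∈ T, Q i ⊆ C := fun i hi => subset_biUnion_of_mem (u := Q) hi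
  -- the constants of the cells
  have hcell : ∀ i ∈ T, ∃ L : ℝ, 0 ≤ L ∧
      (∀ x ∈ bnd (Q i) u a' b', ∀ᶠ y in 𝓝[Q i] x, ∀ s ∈ Icc a' b',
        ‖R.G.toFun (R.foot y, s) - R.G.toFun (R.foot x, s)‖ ≤ L * ‖y - x‖) ∧
      ∀ z ∈ lev (Q i) u a', ∀ s ∈ Icc a' b', ∀ s' ∈ Icc a' b',
        ‖R.G.toFun (z, s) - R.G.toFun (z, s')‖ ≤ L * |s - s'| := by
    intro i hi
    rcases (Q i).eq_empty_or_nonempty with he | hne
    · refine ⟨0, le_rfl, fun x hx => ?_, fun z hz => ?_⟩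
      · have := hx.1; rw [he] at this; exact absurd this (notMem_empty x)
      · have := hz.1; rw [he] at this; exact absurd this (notMem_empty z)
    · obtain ⟨lo, hi', hbox⟩ := hbx i hi
      have hle : ∀ k, lo k ≤ hi' k := by
        obtain ⟨x, hx⟩ := hne
        rw [hbox] at hx
        exact fun k => (hx.1 k).trans (hx.2 k)
      have hset : Q i = {x : Fin 3 → ℝ | ∀ k, lo k ≤ x k ∧ x k ≤ hi' k} := by
        rw [hbox]
        ext x
        exact ⟨fun h k => ⟨h.1 k, h.2 k⟩, fun h => ⟨fun k => (h k).1, fun k => (h k).2⟩⟩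
      have hucQ : ConicalOn u (Q i) := by
        refine H.con.mono ?_ (hQC i hi)
        rw [hbox]
        exact (convex_Icc lo hi').conicalSet
      obtain ⟨R', h1, h2⟩ := exists_restrict R (m := Sum.inl (some (Sum.inl i))) rfl (hQC i hi)
        hucQ
      have hr : Retr (Q i) (fun x k => max (lo k) (min (hi' k) (x k))) := by
        rw [hset]; exact exists_retr_box hle
      obtain ⟨L, hL, e1, e2⟩ := exists_unif R' hr (H.cpt i hi) (H.cont.mono (hQC i hi)) ha hb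
      refine ⟨L, hL, fun x hx => ?_, fun z hz s hs s' hs' => ?_⟩
      · filter_upwards [e1 x hx] with y hy s hs
        have := hy s hs
        rwa [h1, h1, h2, h2] at this
      · have := e2 z hz s hs s' hs'
        rwa [h1, h1] at this
  choose! Lc hL0 hL1 hL2 using hcell
  set L : ℝ := ∑ i ∈ H.fin.toFinset, Lc i with hLdef
  have hLi : ∀ i ∈ T, Lc i ≤ L := by
    intro i hi
    rw [hLdef]
    exact Finset.single_le_sum (f := Lc) (fun k hk => hL0 k (H.fin.mem_toFinset.1 hk))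
      (H.fin.mem_toFinset.2 hi)
  have hL : 0 ≤ L := Finset.sum_nonneg fun k hk => hL0 k (H.fin.mem_toFinset.1 hk)
  refine ⟨L, hL, fun t η hη hta htb => ?_⟩
  obtain ⟨Γ, g1, g2, g3, g4, g5⟩ := exists_sub_band R hη (ha.le.trans hta) (htb.trans hb.le)
  have hs : ∀ s ∈ Icc (-1:ℝ) 1, t + η * s ∈ Icc a' b' := by
    intro s hs
    constructor <;> nlinarith [hs.1, hs.2]
  have htI : t ∈ Icc a b := ⟨by linarith, by linarith⟩
  have hbn : band C u t η ⊆ bnd C u a' b' := by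
    rintro x ⟨hx, hx2⟩
    have := abs_le.1 hx2
    exact ⟨hx, by linarith [this.1], by linarith [this.2]⟩
  have hbn' : band C u t η ⊆ bnd C u a b := fun x hx =>
    ⟨(hbn hx).1, ha.le.trans (hbn hx).2.1, (hbn hx).2.2.trans hb.le⟩
  have hfoot : ∀ x ∈ band C u t η, R.foot (Γ.invFun x).1 = R.foot x := by
    intro x hx
    rw [g2]
    exact R.foot_apply (R.foot_mem (hbn' hx)) htI
  refine ⟨Γ, g3, g4, fun m => g5 (Sum.inl (some m)), ?_, ?_, ?_⟩
  · rintro i hi hiP z hz s hs' (h | h) k hk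
    · exact ((g5 (Sum.inr (i, z)) z hz s hs').2 ⟨hi, hiP, h.1, h.2, fun _ _ => rfl⟩).2.2.2.2 k hk
    · exact (((g5 (Sum.inr (i, Γ.toFun (z, s))) z hz s hs').1
        ⟨hi, hiP, h.1, h.2, fun _ _ => rfl⟩).2.2.2.2 k hk).symm
  · intro i hi x hxi hx
    filter_upwards [hL1 i hi x ⟨hxi, (hbn hx).2⟩] with y hy hyb s hs'
    rw [g1, g1, hfoot x hx, hfoot y hyb]
    exact (hy _ (hs s hs')).trans (mul_le_mul_of_nonneg_right (hLi i hi) (norm_nonneg _))
  · intro z hz s hs' s' hs''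
    rw [g1, g1]
    have hzf := R.foot_mem (ProdOn.lev_sub htI hz)
    obtain ⟨i, hi, hzi⟩ := mem_iUnion₂.1 hz.1
    have hfi : R.foot z ∈ Q i := (R.foot_iff (ProdOn.lev_sub htI hz) (Sum.inl (some (Sum.inl i)))).2
      hzi
    have h3 := hL2 i hi _ ⟨hfi, hzf.2⟩ _ (hs s hs') _ (hs s' hs'')
    rw [add_sub_add_left_eq_sub, ← mul_sub, abs_mul, abs_of_pos hη] at h3
    refine h3.trans (mul_le_mul_of_nonneg_right (hLi i hi) ?_)
    positivity

end GamIn

end P073.H605
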