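import Vale.Agent.P073.H267.Given

/-!
# P073, H605: **[GIVEN-R]** prescribing the homeomorphism on a union of cells

`exists_given_region`: like `H267.exists_given`, but the prescribed map `Ψ` lives on the union
`R` of the cells in `G`; it need not respect the single cells in `G`.
-/

open Set Metric Topology Filter

namespace P073.H605

open P073 P073.H579

variable {E F : Type*} [NormedAddCommGroup E] [NormedSpace ℝ E] [NormedAddCommGroup F]
  [NormedSpace ℝ F]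

/-- a locally finite union of closed sets is relatively closed -/
theorem mem_iUnion_of_closure {X J : Type*} [TopologicalSpace X] {q : J → Set X} {z : X}
    (hlf : ∃ U ∈ 𝓝 z, {j | (q j ∩ U).Nonempty}.Finite) (hq : ∀ j, IsClosed (q j)) {G : Set J}
    (hz : z ∈ closure (⋃ j ∈ G, q j)) : z ∈ ⋃ j ∈ G, q j := by
  obtain ⟨U, hU, hfin⟩ := hlf
  have h1 : z ∈ closure (⋃ j ∈ G ∩ {j | (q j ∩ U).Nonempty}, q j) := by
    rw [mem_closure_iff_nhds] at hz ⊢
    intro V hV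
    obtain ⟨y, ⟨hyV, hyU⟩, hy⟩ := hz (V ∩ U) (inter_mem hV hU)
    obtain ⟨j, hj, hyj⟩ := mem_iUnion₂.1 hy
    exact ⟨y, hyV, mem_iUnion₂.2 ⟨j, ⟨hj, y, hyj, hyU⟩, hyj⟩⟩
  rw [((hfin.subset inter_subset_right).isClosed_biUnion fun j _ => hq j).closure_eq] at h1
  obtain ⟨j, hj, hzj⟩ := mem_iUnion₂.1 h1
  exact mem_iUnion₂.2 ⟨j, hj.1, hzj⟩

/-- **Replacing a homeomorphism on a union of cells**: `Ψ` is a homeomorphism of the union `R` of
the cells `q j`, `j ∈ G`, onto the image of `R`, which agrees with `g` on the intersections with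
the other cells. -/
theorem exists_region {J : Type*} {q : J → Set E} {Ω : Set E} {Λ : Set F} (hcov : ⋃ j, q j = Ω)
    (hlf : ∀ x ∈ Ω, ∃ U ∈ 𝓝 x, {j | (q j ∩ U).Nonempty}.Finite) (hcomp : ∀ j, IsCompact (q j))
    (hcon : ∀ j, ConicalSet (q j)) (g : ConHomeo Ω Λ) (G : Set J) {R : Set E} {R' : Set F}
    (hR : ⋃ j ∈ G, q j = R) (Ψ : ConHomeo R R') (hR' : R' = g.toFun '' R)
    (hag : ∀ i, i ∉ G → ∀ j ∈ G, EqOn Ψ.toFun g.toFun (q i ∩ q j)) :
    ∃ g' : ConHomeo Ω Λ, (∀ i, i ∉ G → EqOn g'.toFun g.toFun (q i)) ∧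
      EqOn g'.toFun Ψ.toFun R := by
  classical
  have hqΩ : ∀ j, q j ⊆ Ω := fun j => hcov ▸ subset_iUnion q j
  have hRΩ : R ⊆ Ω := hR ▸ iUnion₂_subset fun j _ => hqΩ j
  let X : Option {i : J // i ∉ G} → Set E := fun o => o.elim R fun i => q i.1
  let Y : Option {i : J // i ∉ G} → Set F := fun o => o.elim R' fun i => g.toFun '' q i.1
  have hXΩ : ∀ o, X o ⊆ Ω := by
    rintro (_ | i)
    · exact hRΩ
    · exact hqΩ i.1
  have hYimg : ∀ o, Y o = g.toFun '' X o := by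
    rintro (_ | i)
    · exact hR'
    · rfl
  have hXU : ⋃ o, X o = Ω := by
    apply Subset.antisymm (iUnion_subset hXΩ)
    intro x hx
    rw [← hcov] at hx
    obtain ⟨j, hj⟩ := mem_iUnion.1 hx
    by_cases h : j ∈ G
    · exact mem_iUnion.2 ⟨none, (hR ▸ mem_iUnion₂.2 ⟨j, h, hj⟩ : x ∈ R)⟩
    · exact mem_iUnion.2 ⟨some ⟨j, h⟩, hj⟩
  have hYU : ⋃ o, Y o = Λ := by
    rw [iUnion_congr hYimg, ← image_iUnion, hXU, g.image_eq]
  have hfinX : ∀ z ∈ Ω, ∃ U ∈ 𝓝 z, {o | (X o ∩ U).Nonempty}.Finite := by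
    intro z hz
    obtain ⟨U, hU, hfin⟩ := hlf z hz
    refine ⟨U, hU, ?_⟩
    have h1 : {o | (X o ∩ U).Nonempty} ⊆
        {none} ∪ some '' {i : {i : J // i ∉ G} | (q i.1 ∩ U).Nonempty} := by
      rintro (_ | i) ho
      · exact Or.inl rfl
      · exact Or.inr ⟨i, ho, rfl⟩
    refine ((finite_singleton _).union (Finite.image _ ?_)).subset h1
    exact Set.Finite.preimage (f := fun i : {i : J // i ∉ G} => i.1)
      Subtype.val_injective.injOn hfin
  have hLX : RelLF X := by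
    refine ⟨fun z hz => hfinX z (hXU ▸ hz), fun o z hz hzc => ?_⟩
    rw [hXU] at hz
    rcases o with _ | i
    · rw [show X none = R from rfl, ← hR] at hzc ⊢
      exact mem_iUnion_of_closure (hlf z hz) (fun j => (hcomp j).isClosed) hzc
    · rwa [show X (some i) = q i.1 from rfl, (hcomp i.1).isClosed.closure_eq] at hzc
  have hLY : RelLF Y := by
    refine ⟨fun w hw => ?_, fun o w hw hwc => ?_⟩
    · rw [hYU] at hw
      obtain ⟨U, hU, hfin⟩ := hfinX _ (g.mapsTo_inv hw)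
      obtain ⟨V, hV, hVU⟩ := mem_nhdsWithin_iff_exists_mem_nhds_inter.1 (g.cont_inv w hw hU)
      refine ⟨V, hV, hfin.subset ?_⟩
      rintro o ⟨y, hy, hyV⟩
      rw [hYimg] at hy
      obtain ⟨x, hx, rfl⟩ := hy
      refine ⟨x, hx, ?_⟩
      have h1 := hVU ⟨hyV, g.mapsTo (hXΩ o hx)⟩
      rwa [mem_preimage, g.left_inv (hXΩ o hx)] at h1
    · rw [hYU] at hw
      have h1 : g.invFun w ∈ closure (X o) := by
        have h2 : w ∈ closure (Λ ∩ Y o) := by
          rwa [inter_eq_right.2 (show Y o ⊆ Λ from hYU ▸ subset_iUnion Y o)]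
        rw [mem_closure_iff_nhds] at h2 ⊢
        intro U hU
        obtain ⟨V, hV, hVU⟩ := mem_nhdsWithin_iff_exists_mem_nhds_inter.1 (g.cont_inv w hw hU)
        obtain ⟨y, hyV, hyΛ, hy⟩ := h2 V hV
        rw [hYimg] at hy
        obtain ⟨x, hx, rfl⟩ := hy
        have h3 := hVU ⟨hyV, hyΛ⟩
        rw [mem_preimage, g.left_inv (hXΩ o hx)] at h3
        exact ⟨x, h3, hx⟩
      have h2 := hLX.closed o _ (hXU ▸ g.mapsTo_inv hw) h1
      rw [hYimg]
      exact ⟨_, h2, g.right_inv hw⟩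
  let H : ∀ o, ConHomeo (X o) (Y o) := fun o => match o with
    | none => Ψ
    | some i => g.restr (hcon i.1) (hqΩ i.1)
  have hHg : ∀ i : {i : J // i ∉ G}, ∀ x, (H (some i)).toFun x = g.toFun x := fun _ _ => rfl
  have hHΨ : ∀ x, (H none).toFun x = Ψ.toFun x := fun _ => rfl
  have key : ∀ (i : {i : J // i ∉ G}) (x : E), x ∈ q i.1 → x ∈ R → Ψ.toFun x = g.toFun x := by
    intro i x hx hxR
    obtain ⟨j, hj, hxj⟩ := mem_iUnion₂.1 (hR ▸ hxR : x ∈ ⋃ j ∈ G, q j)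
    exact hag i.1 i.2 j hj ⟨hx, hxj⟩
  have hag' : ∀ o o', EqOn (H o).toFun (H o').toFun (X o ∩ X o') := by
    rintro (_ | i) (_ | j) x ⟨h1, h2⟩
    · rfl
    · rw [hHΨ, hHg]; exact key j x h2 h1
    · rw [hHΨ, hHg]; exact (key i x h1 h2).symm
    · rfl
  have himg : ∀ o o', Y o ∩ Y o' ⊆ (H o).toFun '' (X o ∩ X o') := by
    rintro o o' y ⟨h1, h2⟩
    have h1' := h1
    rw [hYimg] at h1 h2
    obtain ⟨x, hx, rfl⟩ := h1
    obtain ⟨x', hx', he⟩ := h2
    have : x' = x := g.injOn (hXΩ o' hx') (hXΩ o hx) he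
    subst this
    by_cases hoo : o = o'
    · subst hoo
      rw [inter_self, (H o).image_eq]
      exact h1'
    · refine ⟨x', ⟨hx, hx'⟩, ?_⟩
      rcases o with _ | i
      · rcases o' with _ | j
        · exact absurd rfl hoo
        · exact key j x' hx' hx
      · rfl
  obtain ⟨Φ, hΦ⟩ := ConHomeo.exists_glue_family hLX hLY H hag' himg
  refine ⟨Φ.cast hXU hYU, fun i hi x hx => ?_, fun x hx => ?_⟩
  · exact (hΦ (some ⟨i, hi⟩)).1 hx
  · exact (hΦ none).1 hx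

variable {J K : Type*} {Ω : Set E} {q S : J → Set E} {F : K → Set E} {Λ Λ' : Set (Fin 3 → ℝ)}
  {κ : (Fin 3 → ℝ) → Fin 3 → ℝ}

/-- **[GIVEN-R]**: prescribing the homeomorphism on the union of the cells in `G` (for the
insertion map `κ`). The cells in `G` need not be mapped to `Pre`. -/
theorem exists_given_region (hC : CellCx Ω q S F) {h : ConHomeo Ω Λ} (g : ConHomeo Ω Λ')
    (hg : ∀ j, g.toFun '' q j = Pre κ Λ' h (q j)) (G : Set J)
    (Ψ : ConHomeo (⋃ j ∈ G, q j) (Pre κ Λ' h (⋃ j ∈ G, q j)))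
    (hΨ : ∀ i, i ∉ G → ∀ j ∈ G, EqOn Ψ.toFun g.toFun (q i ∩ q j)) :
    ∃ g' : ConHomeo Ω Λ', (∀ i, i ∉ G → g'.toFun '' q i = Pre κ Λ' h (q i)) ∧
      g'.toFun '' (⋃ j ∈ G, q j) = Pre κ Λ' h (⋃ j ∈ G, q j) ∧
      (∀ i, i ∉ G → EqOn g'.toFun g.toFun (q i)) ∧
      (EqOn g'.toFun Ψ.toFun (⋃ j ∈ G, q j)) ∧
      ∀ k, (∃ i, i ∉ G ∧ F k ⊆ q i) → EqOn g'.toFun g.toFun (F k) := by
  have e : Pre κ Λ' h (⋃ j ∈ G, q j) = g.toFun '' ⋃ j ∈ G, q j := by
    rw [image_iUnion₂, iUnion₂_congr fun j (_ : j ∈ G) => hg j]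
    simp only [Pre, image_iUnion, preimage_iUnion, inter_iUnion]
  obtain ⟨g', h1, h2⟩ := exists_region hC.cover hC.lf (fun j => (hC.ball j).isCompact)
    (fun j => (hC.ball j).conicalSet) g G rfl Ψ e hΨ
  refine ⟨g', fun i hi => ?_, ?_, h1, h2, fun k ⟨i, hi, hk⟩ x hx => h1 i hi (hk hx)⟩
  · rw [← hg i]
    exact (h1 i hi).image_eq
  · rw [h2.image_eq, Ψ.image_eq]

end P073.H605
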