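import Vale.Agent.P073.H333.GlueSupp

/-!
# P073, block B09, [GLUE]: replacement of a conical homeomorphism on an open subset
-/

namespace Vale.Agent.P073.H605

open MeasureTheory Set Filter Topology Metric
open Vale.Agent.P073.St (V)
open _root_.P073 (ConHomeo ConicalOn ConicalSet ConicalWithinAt)

/-- the image of an open set -/
theorem isOpen_image_con {Ω Λ : Set V} (hΛ : IsOpen Λ) (h : ConHomeo Ω Λ) {U : Set V}
    (hU : IsOpen U) (hUΩ : U ⊆ Ω) : IsOpen (h.toFun '' U) := by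
  have e : h.toFun '' U = Λ ∩ h.invFun ⁻¹' U := by
    ext y
    constructor
    · rintro ⟨x, hx, rfl⟩
      refine ⟨h.mapsTo (hUΩ hx), ?_⟩
      show h.invFun (h.toFun x) ∈ U
      rw [h.left_inv (hUΩ hx)]
      exact hx
    · rintro ⟨hy, hyU⟩
      exact ⟨h.invFun y, hyU, h.right_inv hy⟩
  rw [e]
  exact h.cont_inv.isOpen_inter_preimage hΛ hU

/-- Replacement on an open subset `U` by a map `k` onto the same image which agrees with `h₀` off a
closed set `C ⊆ U`. -/
theorem exists_replace {Ω Λ U Λ' : Set V} (hΩ : IsOpen Ω) (hΛ : IsOpen Λ) (hU : IsOpen U)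
    (hUΩ : U ⊆ Ω) (h₀ : ConHomeo Ω Λ) (k : ConHomeo U Λ') (hΛ' : h₀.toFun '' U = Λ')
    {C : Set V} (hC : IsClosed C) (hCU : C ⊆ U)
    (hk : ∀ x ∈ U, x ∉ C → k.toFun x = h₀.toFun x) :
    ∃ h : ConHomeo Ω Λ, (∀ x ∈ U, h.toFun x = k.toFun x) ∧
      ∀ x ∈ Ω, x ∉ C → h.toFun x = h₀.toFun x := by
  classical
  have hΛ'o : IsOpen Λ' := by
    rw [← hΛ']
    exact isOpen_image_con hΛ h₀ hU hUΩ
  have hΛ'Λ : Λ' ⊆ Λ := by
    rw [← hΛ']
    rintro _ ⟨x, hx, rfl⟩
    exact h₀.mapsTo (hUΩ hx)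
  set g : V → V := fun x => if x ∈ U then k.toFun x else h₀.toFun x with hg
  set j : V → V := fun y => if y ∈ Λ' then k.invFun y else h₀.invFun y with hj
  have g1 : ∀ x ∈ U, g x = k.toFun x := fun x hx => if_pos hx
  have g2 : ∀ x, x ∉ U → g x = h₀.toFun x := fun x hx => if_neg hx
  have g3 : ∀ x, x ∉ C → g x = h₀.toFun x := by
    intro x hx
    by_cases hxU : x ∈ U
    · rw [g1 x hxU, hk x hxU hx]
    · exact g2 x hxU
  have hoff : ∀ x ∈ Ω, x ∉ U → h₀.toFun x ∉ Λ' := by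
    intro x hx hxU hcon
    rw [← hΛ'] at hcon
    obtain ⟨y, hy, hyx⟩ := hcon
    rw [h₀.injOn (hUΩ hy) hx hyx] at hy
    exact hxU hy
  have hoff' : ∀ y ∈ Λ, y ∉ Λ' → h₀.invFun y ∉ U := by
    intro y hy hyΛ hcon
    apply hyΛ
    rw [← hΛ']
    exact ⟨_, hcon, h₀.right_inv hy⟩
  have hmaps : MapsTo g Ω Λ := by
    intro x hx
    by_cases hxU : x ∈ U
    · rw [g1 x hxU]
      exact hΛ'Λ (k.mapsTo hxU)
    · rw [g2 x hxU]
      exact h₀.mapsTo hx
  have hmaps' : MapsTo j Λ Ω := by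
    intro y hy
    by_cases hyU : y ∈ Λ'
    · simp only [hj, if_pos hyU]
      exact hUΩ (k.mapsTo_inv hyU)
    · simp only [hj, if_neg hyU]
      exact h₀.mapsTo_inv hy
  have hleft : LeftInvOn j g Ω := by
    intro x hx
    by_cases hxU : x ∈ U
    · rw [g1 x hxU]
      simp only [hj, if_pos (k.mapsTo hxU)]
      exact k.left_inv hxU
    · rw [g2 x hxU]
      simp only [hj, if_neg (hoff x hx hxU)]
      exact h₀.left_inv hx
  have hright : RightInvOn j g Λ := by
    intro y hy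
    by_cases hyU : y ∈ Λ'
    · simp only [hj, if_pos hyU]
      rw [g1 _ (k.mapsTo_inv hyU)]
      exact k.right_inv hyU
    · simp only [hj, if_neg hyU]
      rw [g2 _ (hoff' y hy hyU)]
      exact h₀.right_inv hy
  have hloc : ∀ x ∈ Ω, (∀ᶠ y in 𝓝 x, y ∈ U ∧ g y = k.toFun y) ∨
      ∀ᶠ y in 𝓝 x, y ∈ Ω ∧ g y = h₀.toFun y := by
    intro x hx
    by_cases hxC : x ∈ C
    · left
      filter_upwards [hU.mem_nhds (hCU hxC)] with y hy
      exact ⟨hy, g1 y hy⟩
    · right
      filter_upwards [hΩ.mem_nhds hx, hC.isOpen_compl.mem_nhds hxC] with y hy hyC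
      exact ⟨hy, g3 y hyC⟩
  have hcont : ContinuousOn g Ω := by
    intro x hx
    refine ContinuousAt.continuousWithinAt ?_
    rcases hloc x hx with h | h
    · have h1 := k.cont.continuousAt (hU.mem_nhds h.self_of_nhds.1)
      exact h1.congr (h.mono fun y hy => hy.2.symm)
    · have h1 := h₀.cont.continuousAt (hΩ.mem_nhds hx)
      exact h1.congr (h.mono fun y hy => hy.2.symm)
  have hcon : ConicalOn g Ω := by
    intro x hx
    rcases hloc x hx with h | h
    · have hxU := h.self_of_nhds.1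
      refine (k.conical x hxU).congr_nhds ?_ ?_ h.self_of_nhds.2
      · filter_upwards [h, hΩ.mem_nhds hx] with y hy hyΩ
        exact ⟨fun _ => hy.1, fun _ => hyΩ⟩
      · exact h.mono fun y hy _ => hy.2
    · refine (h₀.conical x hx).congr_nhds ?_ ?_ h.self_of_nhds.2
      · exact Eventually.of_forall fun y => Iff.rfl
      · exact h.mono fun y hy _ => hy.2
  refine ⟨
    { toFun := g
      invFun := j
      mapsTo := hmaps
      mapsTo_inv := hmaps'
      left_inv := hleft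
      right_inv := hright
      cont := hcont
      cont_inv := ?_
      conical := hcon }, g1, fun x _ hx => g3 x hx⟩
  rw [continuousOn_open_iff hΛ]
  intro t ht
  have e : Λ ∩ j ⁻¹' t = k.toFun '' (U ∩ t) ∪ h₀.toFun '' ((Ω \ C) ∩ t) := by
    ext y
    constructor
    · rintro ⟨hy, hyt⟩
      by_cases hyU : y ∈ Λ'
      · left
        have h1 : j y = k.invFun y := if_pos hyU
        rw [mem_preimage, h1] at hyt
        exact ⟨_, ⟨k.mapsTo_inv hyU, hyt⟩, k.right_inv hyU⟩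
      · right
        have h1 : j y = h₀.invFun y := if_neg hyU
        rw [mem_preimage, h1] at hyt
        exact ⟨_, ⟨⟨h₀.mapsTo_inv hy, fun hc => hoff' y hy hyU (hCU hc)⟩, hyt⟩, h₀.right_inv hy⟩
    · rintro (⟨x, ⟨hxU, hxt⟩, rfl⟩ | ⟨x, ⟨⟨hxΩ, hxC⟩, hxt⟩, rfl⟩)
      · have h1 := hleft (hUΩ hxU)
        rw [g1 x hxU] at h1
        refine ⟨hΛ'Λ (k.mapsTo hxU), ?_⟩
        rw [mem_preimage, h1]
        exact hxt
      · have h1 := hleft hxΩ
        rw [g3 x hxC] at h1
        refine ⟨h₀.mapsTo hxΩ, ?_⟩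
        rw [mem_preimage, h1]
        exact hxt
  rw [e]
  exact (isOpen_image_con hΛ'o k (hU.inter ht) inter_subset_left).union
    (isOpen_image_con hΛ h₀ ((hΩ.sdiff hC).inter ht) fun x hx => hx.1.1)

end Vale.Agent.P073.H605
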