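import Vale.Agent.P073.H605.GlueDefs
import Vale.Agent.P073.H16.EdgeComp
import Vale.Agent.P073.H333.NetInC

/-!
# P073, block B09, [GLUE]: lemmas for `GlueBox`
-/

namespace Vale.Agent.P073.H605

open MeasureTheory Set Filter Topology Metric Vale.Agent.P073.St Vale.Agent.P073.AB
open Vale.Agent.P073.SQ (ev)
open _root_.P073 (ConHomeo)
open _root_.P073.Gauge (gam dvar)
open _root_.P073.Gauge.C110
open _root_.P073.Gauge.O407 (jInt eInt_eq deriv_gam dvar_eq dvar_zero exists_pos_le eInt_le_sum)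
open Vale.Agent.P073.H333 (eInt_congr_edge dvar_one dvar_one_zero eInt_mono' edge_eq_sub edge_sub_gbox)
open scoped ENNReal

/-! ### Conical maps -/

/-- a conical map on a segment is differentiable off a finite set -/
theorem ae_diff {O : Set V} {h : V → V} (hO : IsOpen O) (H : _root_.P073.ConicalOn h O) {v : V}
    {e : Idx × Fin 3} (he : edge v e ⊆ O) :
    ∀ᵐ t : ℝ, t ∈ Icc (0:ℝ) 1 → DifferentiableAt ℝ (fun s => h (gam v e s)) t := by
  set a := pt v e.1.1 e.1.2 with ha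
  set w := (1 / 2 ^ e.1.1 : ℝ) • ev e.2 with hw
  have hseg : ∀ t ∈ Icc (0:ℝ) 1, a + t • w ∈ O := fun t ht =>
    he (mem_edge_iff.2 ⟨t, ht, rfl⟩)
  have hf := _root_.P073.Gauge.finite_notMem_linSpace hO H hseg
  have h1 := hf.measure_zero volume
  rw [measure_eq_zero_iff_ae_notMem] at h1
  filter_upwards [h1] with t ht ht'
  have h2 : w ∈ _root_.P073.linSpace h (a + t • w) := by
    by_contra hcon
    exact ht ⟨ht', hcon⟩
  exact (_root_.P073.Gauge.hasDerivAt_of_mem_linSpace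
    (H.conicalAt hO (hseg t ht')) h2).differentiableAt

/-- uniform continuity of the inverse near the image of a compact set -/
theorem inv_close {S R' : Set V} (hR' : IsOpen R') (φ : ConHomeo S R') {X : Set V}
    (hX : IsCompact X) (hXS : X ⊆ S) {η : ℝ} (hη : 0 < η) :
    ∃ δ > 0, ∀ x ∈ X, ∀ y, ‖y - φ.toFun x‖ ≤ δ → y ∈ R' ∧ ‖φ.invFun y - x‖ ≤ η := by
  have hY : IsCompact (φ.toFun '' X) := hX.image_of_continuousOn (φ.cont.mono hXS)
  have hYR : φ.toFun '' X ⊆ R' := by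
    rintro _ ⟨x, hx, rfl⟩
    exact φ.mapsTo (hXS hx)
  obtain ⟨ρ, hρ, hρR⟩ := hY.exists_cthickening_subset_open hR' hYR
  have hZ : IsCompact (cthickening ρ (φ.toFun '' X)) := hY.cthickening
  have hu := hZ.uniformContinuousOn_of_continuous (φ.cont_inv.mono hρR)
  rw [Metric.uniformContinuousOn_iff] at hu
  obtain ⟨δ, hδ, hu⟩ := hu η hη
  refine ⟨min ρ (δ / 2), lt_min hρ (by positivity), fun x hx y hy => ?_⟩
  have h1 : y ∈ cthickening ρ (φ.toFun '' X) := by
    refine mem_cthickening_of_dist_le y (φ.toFun x) ρ _ ⟨x, hx, rfl⟩ ?_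
    rw [dist_eq_norm]
    exact hy.trans (min_le_left _ _)
  have h2 : φ.toFun x ∈ cthickening ρ (φ.toFun '' X) :=
    self_subset_cthickening _ ⟨x, hx, rfl⟩
  have h3 := hu y h1 (φ.toFun x) h2 (by
    rw [dist_eq_norm]
    have := hy.trans (min_le_right _ _)
    linarith)
  rw [φ.left_inv (hXS hx), dist_eq_norm] at h3
  exact ⟨hρR h1, h3.le⟩

/-- the integral of the difference of two maps on an edge -/
theorem eInt_sub (h φ : V → V) (v : V) (e : Idx × Fin 3) :
    eInt v e (fun x => ENNReal.ofReal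
      ‖lineDeriv ℝ h x (ev e.2) - lineDeriv ℝ φ x (ev e.2)‖) =
      ∫⁻ t in Icc (0:ℝ) 1, ENNReal.ofReal
        ‖deriv (fun s => h (gam v e s)) t - deriv (fun s => φ (gam v e s)) t‖ := by
  rw [eInt_eq]
  unfold jInt
  rw [← lintegral_const_mul' _ _ ENNReal.ofReal_ne_top]
  refine lintegral_congr fun t => ?_
  rw [deriv_gam, deriv_gam, ← smul_sub, norm_smul, Real.norm_of_nonneg (by positivity),
    ENNReal.ofReal_mul (by positivity)]

theorem eInt_sub_const (h : V → V) (v : V) (e : Idx × Fin 3) (w : V) :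
    eInt v e (fun x => ENNReal.ofReal ‖lineDeriv ℝ h x (ev e.2) - w‖) =
      ∫⁻ t in Icc (0:ℝ) 1, ENNReal.ofReal
        ‖deriv (fun s => h (gam v e s)) t - (1 / 2 ^ e.1.1 : ℝ) • w‖ := by
  rw [eInt_eq]
  unfold jInt
  rw [← lintegral_const_mul' _ _ ENNReal.ofReal_ne_top]
  refine lintegral_congr fun t => ?_
  rw [deriv_gam, ← smul_sub, norm_smul, Real.norm_of_nonneg (by positivity),
    ENNReal.ofReal_mul (by positivity)]

/-- measurability along an edge -/
theorem measurable_ld (h : V → V) (v : V) (e : Idx × Fin 3) :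
    Measurable fun t => ENNReal.ofReal ‖lineDeriv ℝ h (gam v e t) (ev e.2)‖ := by
  have h1 : (fun t => ENNReal.ofReal ‖lineDeriv ℝ h (gam v e t) (ev e.2)‖) = fun t =>
      ENNReal.ofReal ‖(2 ^ e.1.1 : ℝ) • deriv (fun s => h (gam v e s)) t‖ := by
    funext t
    rw [deriv_gam, smul_smul, mul_one_div, div_self (by positivity), one_smul]
  rw [h1]
  have h2 : Measurable (deriv fun s => h (gam v e s)) := measurable_deriv _
  exact (h2.const_smul (2 ^ e.1.1 : ℝ)).norm.ennreal_ofReal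

theorem measurable_ld_sub (h φ : V → V) (v : V) (e : Idx × Fin 3) :
    Measurable fun t => ENNReal.ofReal
      ‖lineDeriv ℝ h (gam v e t) (ev e.2) - lineDeriv ℝ φ (gam v e t) (ev e.2)‖ := by
  have h1 : (fun t => ENNReal.ofReal
      ‖lineDeriv ℝ h (gam v e t) (ev e.2) - lineDeriv ℝ φ (gam v e t) (ev e.2)‖) = fun t =>
      ENNReal.ofReal ‖(2 ^ e.1.1 : ℝ) • deriv (fun s => h (gam v e s)) t -
        (2 ^ e.1.1 : ℝ) • deriv (fun s => φ (gam v e s)) t‖ := by
    funext t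
    rw [deriv_gam, deriv_gam, smul_smul, smul_smul, mul_one_div, div_self (by positivity),
      one_smul, one_smul]
  rw [h1]
  have h2 : Measurable (deriv fun s => h (gam v e s)) := measurable_deriv _
  have h3 : Measurable (deriv fun s => φ (gam v e s)) := measurable_deriv _
  exact ((h2.const_smul (2 ^ e.1.1 : ℝ)).sub (h3.const_smul (2 ^ e.1.1 : ℝ))).norm.ennreal_ofReal

/-- **the own edges**: `φ⁻¹ ∘ h` is close to the identity on an edge -/
theorem edge_own {R R' : Set V} (hR : IsOpen R) (hR' : IsOpen R')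
    (φ : ConHomeo R R') {v : V} {e : Idx × Fin 3} (he : edge v e ⊆ R) {η : ℝ} (hη : 0 < η) :
    ∃ δ > 0, ∀ {O Λ : Set V} (h : ConHomeo O Λ), IsOpen O → edge v e ⊆ O →
      MapsTo h.toFun O R' →
      (∀ x ∈ edge v e, ‖h.toFun x - φ.toFun x‖ ≤ δ) →
      eInt v e (fun x => ENNReal.ofReal
        ‖lineDeriv ℝ h.toFun x (ev e.2) - lineDeriv ℝ φ.toFun x (ev e.2)‖) ≤
          ENNReal.ofReal δ →
      eInt v e (fun x => ENNReal.ofReal
        ‖lineDeriv ℝ (fun y => φ.invFun (h.toFun y)) x (ev e.2) - ev e.2‖) ≤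
          ENNReal.ofReal η := by
  have hseg : ∀ t ∈ Icc (0:ℝ) 1,
      pt v e.1.1 e.1.2 + t • ((1 / 2 ^ e.1.1 : ℝ) • ev e.2) ∈ R := fun t ht =>
    he (mem_edge_iff.2 ⟨t, ht, rfl⟩)
  obtain ⟨δ, hδ, H⟩ := H16.comp_close hR hR' φ hseg hη
  refine ⟨δ, hδ, fun {O Λ} h hO heO hmaps hcl hint => ?_⟩
  rw [eInt_sub_const]
  refine H (fun t => h.toFun (gam v e t)) (fun t ht => hcl _ (mem_edge_iff.2 ⟨t, ht, rfl⟩))
    (ae_diff hO h.conical heO) ?_ ?_
  · exact ae_diff (h := fun y => φ.invFun (h.toFun y)) hO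
      (φ.conical_inv.comp h.conical hmaps h.cont) heO
  · rw [eInt_sub] at hint
    exact hint

end Vale.Agent.P073.H605
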