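import Vale.Agent.P073.H605.GlueB

/-!
# P073, block B09, [GLUE]: `GlueBox` from `BoxCell`
-/

namespace Vale.Agent.P073.H605

open MeasureTheory Set Filter Topology Metric Vale.Agent.P073.St Vale.Agent.P073.AB
open Vale.Agent.P073.SQ (ev)
open _root_.P073 (ConHomeo)
open _root_.P073.Gauge (gam dvar)
open _root_.P073.Gauge.C110
open _root_.P073.Gauge.O407 (jInt eInt_eq deriv_gam dvar_eq dvar_zero exists_pos_le eInt_le_sum)
open Vale.Agent.P073.H333 (eInt_congr_edge dvar_one dvar_one_zero eInt_mono' edge_eq_sub edge_sub_gbox)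
open scoped ENNReal

/-! ### Boxes -/

theorem shift_eq (v : V) (N d : ℕ) (a c : ℤ) (i : Fin 3) :
    v i + a / 2 ^ N + c / 2 ^ (N + d) = v i + ((a * 2 ^ d + c : ℤ) : ℝ) / 2 ^ (N + d) := by
  push_cast
  rw [pow_add]
  field_simp
  ring

theorem sbox_eq (v : V) (N m d c : ℕ) (α : Fin 3 → ℤ) :
    sbox v N α m (c / 2 ^ (N + d)) = S308.gbox v (N + d) (fun i => α i * 2 ^ d + c)
      (fun i => (α i + m) * 2 ^ d - c) := by
  have h1 : ∀ i, v i + (α i : ℝ) / 2 ^ N + c / 2 ^ (N + d) =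
      v i + ((α i * 2 ^ d + c : ℤ) : ℝ) / 2 ^ (N + d) := fun i => by
    have := shift_eq v N d (α i) c i
    push_cast at this ⊢
    exact this
  have h2 : ∀ i, v i + ((α i : ℝ) + m) / 2 ^ N - c / 2 ^ (N + d) =
      v i + (((α i + m) * 2 ^ d - c : ℤ) : ℝ) / 2 ^ (N + d) := fun i => by
    have := shift_eq v N d (α i + m) (-c) i
    push_cast at this ⊢
    rw [← sub_eq_add_neg] at this
    rw [← this]
    ring
  ext x
  constructor
  · intro h i
    have := h i
    rw [h1, h2] at this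
    exact this
  · intro h i
    rw [h1, h2]
    exact h i

theorem obx_eq (v : V) (N m d c : ℕ) (α : Fin 3 → ℤ) :
    obx v N α m (c / 2 ^ (N + d)) = S308.obox v (N + d) (fun i => α i * 2 ^ d + c)
      (fun i => (α i + m) * 2 ^ d - c) := by
  have h1 : ∀ i, v i + (α i : ℝ) / 2 ^ N + c / 2 ^ (N + d) =
      v i + ((α i * 2 ^ d + c : ℤ) : ℝ) / 2 ^ (N + d) := fun i => by
    have := shift_eq v N d (α i) c i
    push_cast at this ⊢
    exact this
  have h2 : ∀ i, v i + ((α i : ℝ) + m) / 2 ^ N - c / 2 ^ (N + d) =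
      v i + (((α i + m) * 2 ^ d - c : ℤ) : ℝ) / 2 ^ (N + d) := fun i => by
    have := shift_eq v N d (α i + m) (-c) i
    push_cast at this ⊢
    rw [← sub_eq_add_neg] at this
    rw [← this]
    ring
  ext x
  constructor
  · intro h i
    have := h i
    rw [h1, h2] at this
    exact this
  · intro h i
    rw [h1, h2]
    exact h i

theorem sbox_zero (v : V) (N m : ℕ) (α : Fin 3 → ℤ) :
    sbox v N α m 0 = S308.gbox v N α (fun i => α i + m) := by
  have := sbox_eq v N m 0 0 α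
  simpa using this

theorem obx_zero (v : V) (N m : ℕ) (α : Fin 3 → ℤ) :
    obx v N α m 0 = S308.obox v N α (fun i => α i + m) := by
  have := obx_eq v N m 0 0 α
  simpa using this

theorem sbox_anti {v : V} {N m : ℕ} {α : Fin 3 → ℤ} {η η' : ℝ} (h : η ≤ η') :
    sbox v N α m η' ⊆ sbox v N α m η := by
  intro x hx i
  obtain ⟨h1, h2⟩ := hx i
  constructor <;> linarith

theorem obx_sub_sbox {v : V} {N m : ℕ} {α : Fin 3 → ℤ} {η : ℝ} :
    obx v N α m η ⊆ sbox v N α m η := fun _ hx i => ⟨(hx i).1.le, (hx i).2.le⟩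

/-- finitely many edges of one generation in a box -/
theorem finite_gen (v : V) (N m G : ℕ) (α : Fin 3 → ℤ) :
    {e : Idx × Fin 3 | e.1.1 = G ∧ edge v e ⊆ sbox v N α m 0}.Finite := by
  set a : Fin 3 → ℤ := fun i => ⌊(α i : ℝ) / 2 ^ N * 2 ^ G⌋ with ha
  set b : Fin 3 → ℤ := fun i => ⌈((α i : ℝ) + m) / 2 ^ N * 2 ^ G⌉ with hb
  refine (((Set.finite_Icc a b).prod (Set.finite_univ (α := Fin 3))).image
    (fun p : (Fin 3 → ℤ) × Fin 3 => (((G, p.1), p.2) : Idx × Fin 3))).subset ?_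
  rintro ⟨⟨g, z⟩, i⟩ ⟨hg, he⟩
  simp only at hg
  subst hg
  have hG : (0:ℝ) < 2 ^ g := by positivity
  have h1 : pt v g z ∈ sbox v N α m 0 := he (left_mem_segment ℝ _ _)
  refine ⟨(z, i), ⟨⟨fun j => ?_, fun j => ?_⟩, mem_univ _⟩, rfl⟩
  · have h2 := (h1 j).1
    rw [add_zero] at h2
    have h3 : (α j : ℝ) / 2 ^ N ≤ z j / 2 ^ g := by
      have : v j + (α j : ℝ) / 2 ^ N ≤ v j + z j / 2 ^ g := h2
      linarith
    rw [le_div_iff₀ hG] at h3
    exact (Int.cast_le (R := ℝ)).1 ((Int.floor_le _).trans h3)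
  · have h2 := (h1 j).2
    rw [sub_zero] at h2
    have h3 : (z j : ℝ) / 2 ^ g ≤ ((α j : ℝ) + m) / 2 ^ N := by
      have : v j + (z j : ℝ) / 2 ^ g ≤ v j + ((α j : ℝ) + m) / 2 ^ N := h2
      linarith
    rw [div_le_iff₀ hG] at h3
    exact (Int.cast_le (R := ℝ)).1 (h3.trans (Int.le_ceil _))

/-- an edge of generation `N + d` which meets the open shrunk box lies in the closed one -/
theorem edge_sub_sbox {v : V} {N m d c : ℕ} {α : Fin 3 → ℤ} {e : Idx × Fin 3}
    (he : e.1.1 = N + d) (h : (edge v e ∩ obx v N α m (c / 2 ^ (N + d))).Nonempty) :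
    edge v e ⊆ sbox v N α m (c / 2 ^ (N + d)) := by
  obtain ⟨x, hx, hx'⟩ := h
  rw [sbox_eq]
  rw [obx_eq] at hx'
  exact edge_sub_gbox he hx hx'

/-! ### Sums -/

theorem sum_one (n : ℕ) (A : ℤ) (c : ℝ≥0∞) :
    ∑ j ∈ Finset.range n, (if ((j : ℕ) : ℤ) = A then c else 0) ≤ c := by
  by_cases hA : ∃ j ∈ Finset.range n, ((j : ℕ) : ℤ) = A
  · obtain ⟨j₀, hj₀, rfl⟩ := hA
    rw [Finset.sum_eq_single j₀]
    · simp
    · intro b _ hb
      exact if_neg fun h => hb (by exact_mod_cast h)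
    · intro h
      exact absurd hj₀ h
  · rw [Finset.sum_eq_zero]
    · exact zero_le
    · intro j hj
      exact if_neg fun h => hA ⟨j, hj, h⟩

/-- sum over the sub-edges -/
theorem eInt_sub_le (v : V) (e : Idx × Fin 3) (d : ℕ) (H : V → ℝ≥0∞) {s : ℝ≥0∞}
    (h : ∀ j < 2 ^ d, eInt v (subEdge e d j) H ≤ s) : eInt v e H ≤ 2 ^ d * s := by
  refine (eInt_le_sum (edge_eq_sub v e d) H).trans ?_
  calc ∑ j ∈ Finset.range (2 ^ d), eInt v (subEdge e d j) H
      ≤ ∑ _j ∈ Finset.range (2 ^ d), s :=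
        Finset.sum_le_sum fun j hj => h j (Finset.mem_range.1 hj)
    _ = 2 ^ d * s := by
        rw [Finset.sum_const, Finset.card_range, nsmul_eq_mul]
        push_cast
        rfl

/-- zero on edges where the maps agree -/
theorem eInt_zero_of_eq {h h' : V → V} {v : V} {e : Idx × Fin 3}
    (H : ∀ x ∈ edge v e, h' x = h x) :
    eInt v e (fun x => ENNReal.ofReal
      ‖lineDeriv ℝ h' x (ev e.2) - lineDeriv ℝ h x (ev e.2)‖) = 0 := by
  rw [eInt_congr_edge H (fun x w => ENNReal.ofReal ‖w - lineDeriv ℝ h x (ev e.2)‖)]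
  simp [eInt]

/-- the lengths under `φ ∘ g` -/
theorem edge_len {R R' : Set V} (hR : IsOpen R) (φ : ConHomeo R R') {X : Set V}
    (hX : IsCompact X) (hXR : X ⊆ R) :
    ∃ K : ℝ, 0 ≤ K ∧ ∀ {O : Set V} (g : ConHomeo O R) {v : V} {e : Idx × Fin 3}, IsOpen O →
      edge v e ⊆ O → (∀ x ∈ edge v e, g.toFun x ∈ X) →
      eInt v e (fun x => ENNReal.ofReal
        ‖lineDeriv ℝ (fun y => φ.toFun (g.toFun y)) x (ev e.2)‖) ≤
        ENNReal.ofReal K * eInt v e (fun x => ENNReal.ofReal ‖lineDeriv ℝ g.toFun x (ev e.2)‖) := by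
  obtain ⟨K, hK, H⟩ := H16.comp_len hR φ hX hXR
  refine ⟨K, hK, fun {O} g {v e} hO heO hgX => ?_⟩
  have hcg : ContinuousOn (fun t => g.toFun (gam v e t)) (Icc 0 1) := by
    refine g.cont.comp (f := fun t => gam v e t) ?_ fun t ht =>
      heO (mem_edge_iff.2 ⟨t, ht, rfl⟩)
    exact (by unfold gam; fun_prop : Continuous fun t => gam v e t).continuousOn
  have h1 := H (fun t => g.toFun (gam v e t)) hcg
    fun t ht => hgX _ (mem_edge_iff.2 ⟨t, ht, rfl⟩)
  have h2 := ae_diff hO g.conical heO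
  have h3 := ae_diff (h := fun y => φ.toFun (g.toFun y)) hO (g.trans φ).conical heO
  have e1 : ∀ h : V → V, eInt v e (fun x => ENNReal.ofReal ‖lineDeriv ℝ h x (ev e.2)‖) =
      ∫⁻ t in Icc (0:ℝ) 1, ENNReal.ofReal ‖deriv (fun s => h (gam v e s)) t‖ := by
    intro h
    have := eInt_sub_const h v e 0
    simpa using this
  rw [e1, e1, ← lintegral_const_mul' _ _ ENNReal.ofReal_ne_top]
  refine lintegral_mono_ae ?_
  rw [ae_restrict_iff' measurableSet_Icc]
  filter_upwards [h1, h2, h3] with t t1 t2 t3 ht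
  rw [← ENNReal.ofReal_mul hK]
  exact ENNReal.ofReal_le_ofReal (t1 ht (t2 ht) (t3 ht))

/-- triangle inequalities on an edge -/
theorem eInt_tri3 (h' h φ : V → V) (v : V) (e : Idx × Fin 3) :
    eInt v e (fun x => ENNReal.ofReal
      ‖lineDeriv ℝ h' x (ev e.2) - lineDeriv ℝ h x (ev e.2)‖) ≤
      eInt v e (fun x => ENNReal.ofReal ‖lineDeriv ℝ h' x (ev e.2)‖) +
      (eInt v e (fun x => ENNReal.ofReal
        ‖lineDeriv ℝ h x (ev e.2) - lineDeriv ℝ φ x (ev e.2)‖) +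
      eInt v e (fun x => ENNReal.ofReal ‖lineDeriv ℝ φ x (ev e.2)‖)) := by
  rw [← S293.eInt_add v e _ _ (measurable_ld φ v e).aemeasurable, ← S293.eInt_add]
  · refine eInt_mono' v e fun x => ?_
    rw [← ENNReal.ofReal_add (norm_nonneg _) (norm_nonneg _),
      ← ENNReal.ofReal_add (norm_nonneg _) (by positivity)]
    refine ENNReal.ofReal_le_ofReal ?_
    have h1 := norm_sub_le (lineDeriv ℝ h' x (ev e.2)) (lineDeriv ℝ h x (ev e.2))
    have h2 := norm_sub_norm_le (lineDeriv ℝ h x (ev e.2)) (lineDeriv ℝ φ x (ev e.2))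
    linarith
  · exact ((measurable_ld_sub h φ v e).add (measurable_ld φ v e)).aemeasurable

end Vale.Agent.P073.H605
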