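import Vale.Agent.P073.H605.GlueC

/-!
# P073, block B09, [GLUE]: `GlueBox` from `BoxCell`, the proof
-/

namespace Vale.Agent.P073.H605

open MeasureTheory Set Filter Topology Metric Vale.Agent.P073.St Vale.Agent.P073.AB
open Vale.Agent.P073.SQ (ev)
open _root_.P073 (ConHomeo)
open _root_.P073.Gauge (gam dvar)
open _root_.P073.Gauge.C110
open _root_.P073.Gauge.O407 (jInt eInt_eq deriv_gam dvar_eq dvar_zero exists_pos_le eInt_le_sum)
open Vale.Agent.P073.H333 (eInt_congr_edge dvar_one dvar_one_zero eInt_mono' edge_eq_sub edge_sub_gbox)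
open scoped ENNReal

/-- the position of the sub-edges in the shell -/
theorem gap_pos {v : V} {N m d : ℕ} {α : Fin 3 → ℤ} {e₁ : Idx × Fin 3} (he₁ : e₁.1.1 = N)
    (hd : 2 ≤ d) (hmeet : (edge v e₁ ∩ obx v N α m 0).Nonempty) {j : ℕ}
    (h1 : edge v (subEdge e₁ d j) ⊆ sbox v N α m (1 / 2 ^ (N + d)))
    (h2 : ¬ (edge v (subEdge e₁ d j) ∩ obx v N α m (2 / 2 ^ (N + d))).Nonempty) :
    (j : ℤ) = 2 ^ d * (α e₁.2 - e₁.1.2 e₁.2) + 1 ∨
      (j : ℤ) = 2 ^ d * (α e₁.2 + m - e₁.1.2 e₁.2) - 2 := by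
  subst he₁
  set N := e₁.1.1 with hN
  set z := e₁.1.2 with hz
  set i := e₁.2 with hi
  have hp : (0:ℝ) < 2 ^ N := by positivity
  have hpd : (0:ℝ) < 2 ^ d := by positivity
  have hpM : (0:ℝ) < 2 ^ (N + d) := by positivity
  have hd4 : (4:ℝ) ≤ 2 ^ d := by
    calc (4:ℝ) = 2 ^ 2 := by norm_num
      _ ≤ 2 ^ d := pow_le_pow_right₀ (by norm_num) hd
  have key : ∀ c : ℝ, c / 2 ^ N = 2 ^ d * c / 2 ^ (N + d) := by
    intro c
    rw [pow_add]
    field_simp
  -- the transversal coordinates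
  obtain ⟨x, hx, hx'⟩ := hmeet
  rw [Gr.mem_edge] at hx
  have htr : ∀ l, l ≠ i → α l + 1 ≤ z l ∧ z l + 1 ≤ α l + m := by
    intro l hl
    have e1 := hx.1 l hl
    obtain ⟨e2, e3⟩ := hx' l
    rw [e1, add_zero] at e2
    rw [e1, sub_zero] at e3
    have e4 : (α l : ℝ) < z l := by
      have : (α l : ℝ) / 2 ^ N < z l / 2 ^ N := by
        have e2' : v l + (α l : ℝ) / 2 ^ N < v l + z l / 2 ^ N := e2
        linarith
      exact (div_lt_div_iff_of_pos_right hp).1 this
    have e5 : (z l : ℝ) < α l + m := by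
      have : (z l : ℝ) / 2 ^ N < (α l + m) / 2 ^ N := by
        have e3' : v l + (z l : ℝ) / 2 ^ N < v l + (α l + m) / 2 ^ N := e3
        linarith
      exact (div_lt_div_iff_of_pos_right hp).1 this
    have e4' : α l < z l := by exact_mod_cast e4
    have e5' : z l < α l + m := by exact_mod_cast e5
    omega
  -- the two ends
  have hmem : ∀ s ∈ Icc (0:ℝ) 1, (fun l => if l = i then v l + (2 ^ d * z l + j + s) / 2 ^ (N + d)
      else v l + z l / 2 ^ N : V) ∈ edge v (subEdge e₁ d j) := by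
    intro s hs
    rw [Gr.mem_edge]
    refine ⟨fun l hl => ?_, ?_, ?_⟩
    · have hl' : l ≠ i := hl
      simp only [if_neg hl']
      show v l + (z l : ℝ) / 2 ^ N = v l + ((if l = i then 2 ^ d * z l + j else 2 ^ d * z l : ℤ) :
        ℝ) / 2 ^ (N + d)
      rw [if_neg hl', key]
      push_cast
      ring
    · show v i + ((if i = i then 2 ^ d * z i + j else 2 ^ d * z i : ℤ) : ℝ) / 2 ^ (N + d) ≤
        if i = i then v i + (2 ^ d * z i + j + s) / 2 ^ (N + d) else v i + z i / 2 ^ N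
      rw [if_pos rfl, if_pos rfl]
      push_cast
      have := hs.1
      have h3 : (2 ^ d * (z i : ℝ) + j) / 2 ^ (N + d) ≤ (2 ^ d * z i + j + s) / 2 ^ (N + d) :=
        div_le_div_of_nonneg_right (by linarith) hpM.le
      linarith
    · show (if i = i then v i + (2 ^ d * z i + j + s) / 2 ^ (N + d) else v i + z i / 2 ^ N) ≤
        v i + (((if i = i then 2 ^ d * z i + j else 2 ^ d * z i : ℤ) : ℝ) + 1) / 2 ^ (N + d)
      rw [if_pos rfl, if_pos rfl]
      push_cast
      have := hs.2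
      have h3 : (2 ^ d * (z i : ℝ) + j + s) / 2 ^ (N + d) ≤
          (2 ^ d * z i + j + 1) / 2 ^ (N + d) :=
        div_le_div_of_nonneg_right (by linarith) hpM.le
      linarith
  have hlo : (α i : ℝ) * 2 ^ d + 1 ≤ 2 ^ d * z i + j := by
    have e1 := (h1 (hmem 0 ⟨le_rfl, zero_le_one⟩) i).1
    simp only [if_true] at e1
    rw [key, add_zero] at e1
    have e2 : (2 ^ d * (α i : ℝ) + 1) / 2 ^ (N + d) ≤ (2 ^ d * z i + j) / 2 ^ (N + d) := by
      rw [add_div]
      linarith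
    have e3 := (div_le_div_iff_of_pos_right hpM).1 e2
    linarith
  have hhi : (2:ℝ) ^ d * z i + j + 1 ≤ (α i + m) * 2 ^ d - 1 := by
    have e1 := (h1 (hmem 1 ⟨zero_le_one, le_rfl⟩) i).2
    simp only [if_true] at e1
    rw [key] at e1
    have e2 : (2 ^ d * (z i : ℝ) + j + 1) / 2 ^ (N + d) ≤
        (2 ^ d * ((α i : ℝ) + m) - 1) / 2 ^ (N + d) := by
      rw [sub_div]
      linarith
    have e3 := (div_le_div_iff_of_pos_right hpM).1 e2
    linarith
  have hmid : ¬ ((α i : ℝ) * 2 ^ d + 2 < 2 ^ d * z i + j + 1 / 2 ∧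
      2 ^ d * (z i : ℝ) + j + 1 / 2 < (α i + m) * 2 ^ d - 2) := by
    rintro ⟨c1, c2⟩
    refine h2 ⟨_, hmem (1 / 2) (by norm_num), fun l => ?_⟩
    by_cases hl : l = i
    · subst hl
      simp only [if_true]
      rw [key, key]
      constructor
      · have e2 : (2 ^ d * (α i : ℝ) + 2) / 2 ^ (N + d) <
            (2 ^ d * z i + j + 1 / 2) / 2 ^ (N + d) := by
          rw [div_lt_div_iff_of_pos_right hpM]
          linarith
        rw [add_div] at e2
        linarith
      · have e2 : (2 ^ d * (z i : ℝ) + j + 1 / 2) / 2 ^ (N + d) <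
            (2 ^ d * ((α i : ℝ) + m) - 2) / 2 ^ (N + d) := by
          rw [div_lt_div_iff_of_pos_right hpM]
          linarith
        rw [sub_div] at e2
        linarith
    · simp only [if_neg hl]
      obtain ⟨t1, t2⟩ := htr l hl
      have t1' : (α l : ℝ) + 1 ≤ z l := by exact_mod_cast t1
      have t2' : (z l : ℝ) + 1 ≤ α l + m := by exact_mod_cast t2
      rw [key, key, key]
      constructor
      · have e2 : (2 ^ d * (α l : ℝ) + 2) / 2 ^ (N + d) < (2 ^ d * z l) / 2 ^ (N + d) := by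
          rw [div_lt_div_iff_of_pos_right hpM]
          nlinarith
        rw [add_div] at e2
        linarith
      · have e2 : (2 ^ d * (z l : ℝ)) / 2 ^ (N + d) <
            (2 ^ d * ((α l : ℝ) + m) - 2) / 2 ^ (N + d) := by
          rw [div_lt_div_iff_of_pos_right hpM]
          nlinarith
        rw [sub_div] at e2
        linarith
  have hlo' : α i * 2 ^ d + 1 ≤ 2 ^ d * z i + j := by exact_mod_cast hlo
  have hhi' : 2 ^ d * z i + j + 1 ≤ (α i + m) * 2 ^ d - 1 := by exact_mod_cast hhi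
  by_cases hc : (α i : ℝ) * 2 ^ d + 2 < 2 ^ d * z i + j + 1 / 2
  · right
    have c2 : ¬ (2 ^ d * (z i : ℝ) + j + 1 / 2 < (α i + m) * 2 ^ d - 2) := fun h => hmid ⟨hc, h⟩
    have c3 : ((α i + m) * 2 ^ d - 3 : ℤ) < 2 ^ d * z i + j := by
      have : (((α i + m) * 2 ^ d - 3 : ℤ) : ℝ) < ((2 ^ d * z i + j : ℤ) : ℝ) := by
        push_cast
        linarith
      exact_mod_cast this
    have c4 : (2:ℤ) ^ d * z i + j = (α i + m) * 2 ^ d - 2 := by omega
    linear_combination c4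
  · left
    have c3 : (2 ^ d * z i + j : ℤ) < α i * 2 ^ d + 2 := by
      have : ((2 ^ d * z i + j : ℤ) : ℝ) < ((α i * 2 ^ d + 2 : ℤ) : ℝ) := by
        push_cast
        linarith
      exact_mod_cast this
    have c4 : (2:ℤ) ^ d * z i + j = α i * 2 ^ d + 1 := by omega
    linear_combination c4

/-- the enlarged box lies in the thickening -/
theorem sbox_sub_cthickening (v : V) (N m : ℕ) (α : Fin 3 → ℤ) {η : ℝ} (hη : 0 ≤ η) :
    sbox v N α m (-η) ⊆ cthickening η (sbox v N α m 0) := by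
  intro x hx
  have hlh : ∀ i, v i + (α i : ℝ) / 2 ^ N ≤ v i + (α i + m) / 2 ^ N := fun i => by
    gcongr
    have : (0:ℝ) ≤ m := Nat.cast_nonneg m
    linarith
  refine mem_cthickening_of_dist_le x
    (fun i => max (v i + (α i : ℝ) / 2 ^ N) (min (x i) (v i + (α i + m) / 2 ^ N))) η _
    (fun i => ⟨?_, ?_⟩) ?_
  · rw [add_zero]
    exact le_max_left _ _
  · rw [sub_zero]
    exact max_le (hlh i) (min_le_right _ _)
  · rw [dist_pi_le_iff hη]
    intro i
    obtain ⟨h1, h2⟩ := hx i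
    rw [Real.dist_eq, abs_le]
    rcases max_cases (v i + (α i : ℝ) / 2 ^ N) (min (x i) (v i + (α i + m) / 2 ^ N)) with h | h <;>
    rcases min_cases (x i) (v i + ((α i : ℝ) + m) / 2 ^ N) with h' | h' <;>
    constructor <;> linarith [h.1, h.2, h'.1, h'.2]

theorem exists_exp {m : ℕ} (hm : 1 ≤ m) : ∃ b : ℕ, 2 ^ b < 2 * m ∧ m ≤ 2 ^ b := by
  rcases hm.eq_or_lt with h | h
  · exact ⟨0, by omega, by omega⟩
  · refine ⟨Nat.clog 2 m, ?_, Nat.le_pow_clog one_lt_two m⟩
    have h1 := Nat.pow_pred_clog_lt_self one_lt_two h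
    have h2 : 0 < Nat.clog 2 m := Nat.clog_pos one_lt_two h
    obtain ⟨c, hc⟩ : ∃ c, Nat.clog 2 m = c + 1 := ⟨Nat.clog 2 m - 1, by omega⟩
    rw [hc] at h1 ⊢
    simp only [Nat.pred_succ] at h1
    rw [pow_succ]
    omega

end Vale.Agent.P073.H605
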