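import Vale.Agent.P073.H333.NetInB
import Vale.Agent.P073.H605.GlueA

/-!
# P073, block B09, [GLUE]: the statements

* `BoxCell` (851): the cell filler with `A = id` on a box of `m` cubes of the grid `N`;
* `GlueBox` (605): a conical homeomorphism close to `φ` is replaced by `φ` on the box.
-/

namespace Vale.Agent.P073.H605

open MeasureTheory Set Filter Topology Metric Vale.Agent.P073.St Vale.Agent.P073.AB
open Vale.Agent.P073.SQ (ev)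
open _root_.P073 (ConHomeo)
open scoped ENNReal

/-- the box shrunk by `η` (enlarged for `η < 0`) -/
def sbox (v : V) (N : ℕ) (α : Fin 3 → ℤ) (m : ℕ) (η : ℝ) : Set V :=
  {x | ∀ i, v i + α i / 2 ^ N + η ≤ x i ∧ x i ≤ v i + (α i + m) / 2 ^ N - η}

/-- the open box shrunk by `η` -/
def obx (v : V) (N : ℕ) (α : Fin 3 → ℤ) (m : ℕ) (η : ℝ) : Set V :=
  {x | ∀ i, v i + α i / 2 ^ N + η < x i ∧ x i < v i + (α i + m) / 2 ^ N - η}

/-- **[BOX-CELL]** The filler on a box with `A = id`. `M = N - b + k₁` is the generation of the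
gap. -/
def BoxCell : Prop :=
  ∃ C₁ > 0, ∀ b k₁ : ℕ, 3 ≤ k₁ → ∃ (k₀ : ℕ) (κ : ℝ), 0 < κ ∧
    ∀ (O O' : Set V) (g : ConHomeo O O') (v : V) (N m : ℕ) (α : Fin 3 → ℤ), IsOpen O →
      IsOpen O' → Bornology.IsBounded O → b ≤ N → 2 ^ b < 2 * m → m ≤ 2 ^ b → b + 2 ≤ k₁ →
      sbox v N α m (-(4 / 2 ^ (N - b + k₁))) ⊆ O →
      (∀ x ∈ sbox v N α m 0, ‖g.toFun x - x‖ ≤ κ / 2 ^ (N - b + k₁ + k₀)) →
      (∀ e : Idx × Fin 3, e.1.1 = N - b + k₁ + k₀ + 1 → edge v e ⊆ sbox v N α m 0 →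
        eInt v e (fun x => ENNReal.ofReal ‖lineDeriv ℝ g.toFun x (ev e.2) - ev e.2‖) ≤
          ENNReal.ofReal (κ / 2 ^ (N - b + k₁ + k₀))) →
      ∃ g' : ConHomeo O O',
        (∀ x ∈ O, x ∉ obx v N α m 0 → g'.toFun x = g.toFun x) ∧
        (∀ e : Idx × Fin 3, e.1.1 = N → edge v e ⊆ sbox v N α m 0 → ∀ x ∈ edge v e,
          x ∉ obx v N α m (1 / 2 ^ (N - b + k₁)) → g'.toFun x = g.toFun x) ∧
        (∀ x ∈ sbox v N α m (2 / 2 ^ (N - b + k₁)), g'.toFun x = x) ∧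
        (∀ x ∈ sbox v N α m 0, ‖g'.toFun x - x‖ ≤ C₁ / 2 ^ (N - b + k₁)) ∧
        ∀ e : Idx × Fin 3, e.1.1 = N → edge v e ⊆ sbox v N α m 0 →
          ∀ e' : Idx × Fin 3, e'.1.1 = N - b + k₁ → e'.2 = e.2 → edge v e' ⊆ edge v e →
          edge v e' ⊆ sbox v N α m (1 / 2 ^ (N - b + k₁)) →
          Disjoint (edge v e') (obx v N α m (2 / 2 ^ (N - b + k₁))) →
          eInt v e' (fun x => ENNReal.ofReal ‖lineDeriv ℝ g'.toFun x (ev e'.2)‖) ≤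
            ENNReal.ofReal (C₁ / 2 ^ (N - b + k₁))

/-- **[GLUE-BOX]** one box: `h`, close to `φ` on `R`, is replaced by `φ` on the box (without the
outermost layer of cubes of generation `N`). -/
def GlueBox : Prop :=
  ∀ (R R' : Set V) (φ : ConHomeo R R') (v : V) (N m : ℕ) (α : Fin 3 → ℤ) (ε : ℝ), IsOpen R →
    IsOpen R' → Bornology.IsBounded R → 1 ≤ m → m ≤ 2 ^ N → sbox v N α m 0 ⊆ R → 0 < ε →
    ∃ (G : ℕ) (δ : ℝ), N ≤ G ∧ 0 < δ ∧ ∀ (Ω Λ : Set V) (h : ConHomeo Ω Λ), IsOpen Ω →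
      IsOpen Λ → R ⊆ Ω → R' ⊆ Λ → Bornology.IsBounded Ω →
      (∀ x ∈ R, ‖h.toFun x - φ.toFun x‖ ≤ δ) →
      (∀ e : Idx × Fin 3, e.1.1 = G → edge v e ⊆ sbox v N α m 0 →
        eInt v e (fun x => ENNReal.ofReal
          ‖lineDeriv ℝ h.toFun x (ev e.2) - lineDeriv ℝ φ.toFun x (ev e.2)‖) ≤
            ENNReal.ofReal δ) →
      ∃ h' : ConHomeo Ω Λ,
        (∀ x ∈ Ω, x ∉ obx v N α m 0 → h'.toFun x = h.toFun x) ∧
        (∀ x ∈ sbox v N α m (1 / 2 ^ N), h'.toFun x = φ.toFun x) ∧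
        (∀ x ∈ sbox v N α m 0, ‖h'.toFun x - φ.toFun x‖ ≤ ε) ∧
        ∀ e : Idx × Fin 3, e.1.1 ≤ N → edge v e ⊆ Ω →
          eInt v e (fun x => ENNReal.ofReal
            ‖lineDeriv ℝ h'.toFun x (ev e.2) - lineDeriv ℝ h.toFun x (ev e.2)‖) ≤
              ENNReal.ofReal ε

end Vale.Agent.P073.H605
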