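import Vale.Agent.P073.H605.GlueE
import Vale.Agent.P073.H851.BoxCell

/-!
# P073, block B09, [GLUE]: `GlueBox`
-/

namespace Vale.Agent.P073.H605

/-- **[GLUE-BOX]** -/
theorem glueBox : GlueBox := glueBox_of H851.BC.boxCell

end Vale.Agent.P073.H605
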