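import Vale.Agent.P073.H579.FacePat
import Vale.Agent.P073.H142.Hull
import Vale.Agent.P073.H236.QS

/-!
# P073, H605: **[OSC-E]** oscillation by counting levels

`LOsc L f F n`: between two values of `f` on `F` there are at most `n` levels in `L`.

* rules: `LOsc.mono`, `LOsc.union`, `LOsc.star`;
* `LOsc.of_levels`: `F` connected, every level met by `F` is met on `K` or is in `T`;
  `LOsc.of_skel` (cells, faces: `K` = the union of the edges);
* `LOsc.of_facePat`: half of the number of crossing points on the boundary (E-faces);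
* `isPreconnected_skel`: the union of the boundaries of the faces of a cell is connected;
* `LOsc.sub_le`, `LOsc.abs_sub_le`: from levels to the oscillation of `S ∘ f` (also with a fade:
  `LOsc.abs_sub_le_near`).
-/

open Set Metric Topology Filter

namespace P073.H605

open P073 P073.H579 P073.H339

/-- between two values of `f` on `F` there are at most `n` levels -/
def LOsc {X : Type*} (L : Finset ℝ) (f : X → ℝ) (F : Set X) (n : ℕ) : Prop :=
  ∀ x ∈ F, ∀ y ∈ F, (L.filter fun l => f x < l ∧ l ≤ f y).card ≤ n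

namespace LOsc

variable {X : Type*} {L : Finset ℝ} {f : X → ℝ} {F G K : Set X} {n m : ℕ}

theorem mono (h : LOsc L f F n) (hG : G ⊆ F) (hn : n ≤ m) : LOsc L f G m :=
  fun x hx y hy => (h x (hG hx) y (hG hy)).trans hn

theorem congr {f' : X → ℝ} (h : LOsc L f F n) (hf : EqOn f' f F) : LOsc L f' F n := by
  intro x hx y hy
  rw [hf hx, hf hy]
  exact h x hx y hy

theorem congr_lev {f' : X → ℝ} (h : LOsc L f F n)
    (hf : ∀ l ∈ L, ∀ x ∈ F, (f' x < l ↔ f x < l)) (hf' : ∀ l ∈ L, ∀ x ∈ F, (l ≤ f' x ↔ l ≤ f x)) :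
    LOsc L f' F n := by
  intro x hx y hy
  refine (Finset.card_le_card ?_).trans (h x hx y hy)
  intro l hl
  rw [Finset.mem_filter] at hl ⊢
  exact ⟨hl.1, (hf l hl.1 x hx).1 hl.2.1, (hf' l hl.1 y hy).1 hl.2.2⟩

/-- the triangle inequality -/
theorem card_le_add (L : Finset ℝ) (a b c : ℝ) : (L.filter fun l => a < l ∧ l ≤ c).card ≤
    (L.filter fun l => a < l ∧ l ≤ b).card + (L.filter fun l => b < l ∧ l ≤ c).card := by
  classical
  refine (Finset.card_le_card ?_).trans (Finset.card_union_le _ _)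
  intro l hl
  rw [Finset.mem_filter] at hl
  rw [Finset.mem_union, Finset.mem_filter, Finset.mem_filter]
  rcases le_or_gt l b with h | h
  · exact Or.inl ⟨hl.1, hl.2.1, h⟩
  · exact Or.inr ⟨hl.1, h, hl.2.2⟩

theorem union (h : LOsc L f F n) (h' : LOsc L f G m) (hne : (F ∩ G).Nonempty) :
    LOsc L f (F ∪ G) (n + m) := by
  obtain ⟨z, hz, hz'⟩ := hne
  have key : ∀ x ∈ F, ∀ y ∈ G, (L.filter fun l => f x < l ∧ l ≤ f y).card ≤ n + m ∧
      (L.filter fun l => f y < l ∧ l ≤ f x).card ≤ n + m := by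
    intro x hx y hy
    exact ⟨(card_le_add L _ (f z) _).trans (add_le_add (h x hx z hz) (h' z hz' y hy)),
      (card_le_add L _ (f z) _).trans ((add_le_add (h' y hy z hz') (h z hz x hx)).trans
        (add_comm _ _).le)⟩
  rintro x (hx | hx) y (hy | hy)
  · exact (h x hx y hy).trans (Nat.le_add_right _ _)
  · exact (key x hx y hy).1
  · exact (key y hy x hx).2
  · exact (h' x hx y hy).trans (Nat.le_add_left _ _)

/-- all sets `F j` meet `K` -/
theorem star {J : Type*} {F : J → Set X} (hK : LOsc L f K n) (hF : ∀ j, LOsc L f (F j) m)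
    (hne : ∀ j, (K ∩ F j).Nonempty) : LOsc L f (K ∪ ⋃ j, F j) (n + 2 * m) := by
  have key : ∀ x ∈ K ∪ ⋃ j, F j, ∃ z ∈ K, (L.filter fun l => f x < l ∧ l ≤ f z).card ≤ m ∧
      (L.filter fun l => f z < l ∧ l ≤ f x).card ≤ m := by
    rintro x (hx | hx)
    · refine ⟨x, hx, ?_, ?_⟩ <;>
      · rw [Finset.filter_eq_empty_iff.2, Finset.card_empty]
        · exact Nat.zero_le _
        · rintro l - ⟨h1, h2⟩
          exact absurd h1 (not_lt.2 h2)
    · obtain ⟨j, hj⟩ := mem_iUnion.1 hx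
      obtain ⟨z, hzK, hzF⟩ := hne j
      exact ⟨z, hzK, hF j x hj z hzF, hF j z hzF x hj⟩
  intro x hx y hy
  obtain ⟨z, hz, hxz, -⟩ := key x hx
  obtain ⟨w, hw, -, hwy⟩ := key y hy
  have h1 := card_le_add L (f x) (f z) (f y)
  have h2 := card_le_add L (f z) (f w) (f y)
  have h3 := hK z hz w hw
  omega

end LOsc

section conn

variable {X : Type*} [TopologicalSpace X] {L : Finset ℝ} {f : X → ℝ} {F K : Set X} {n : ℕ}

/-- `F` connected: count the levels which are met -/
theorem LOsc.of_met (hF : IsPreconnected F) (hf : ContinuousOn f F)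
    (h : ∀ T : Finset ℝ, T ⊆ L → (∀ l ∈ T, ∃ x ∈ F, f x = l) → T.card ≤ n) : LOsc L f F n := by
  intro x hx y hy
  refine h _ (Finset.filter_subset _ _) fun l hl => ?_
  rw [Finset.mem_filter] at hl
  obtain ⟨z, hz, hz'⟩ := hF.intermediate_value hx hy hf ⟨hl.2.1.le, hl.2.2⟩
  exact ⟨z, hz, hz'⟩

/-- **every level which is met by `F` is met on `K` or belongs to `T`** (`E3Lev`: `K` is the
boundary of the face, `T` the levels of the old map on the untouched part of the face). The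
crossing points on `K` are counted. -/
theorem LOsc.of_levels (hF : IsPreconnected F) (hf : ContinuousOn f F) {T : Finset ℝ}
    (hlev : ∀ l ∈ L, ∀ x ∈ F, f x = l → (∃ y ∈ K, f y = l) ∨ l ∈ T)
    (hfin : {x | x ∈ K ∧ f x ∈ L}.Finite) (hn : {x | x ∈ K ∧ f x ∈ L}.ncard + T.card ≤ n) :
    LOsc L f F n := by
  classical
  refine LOsc.of_met hF hf fun S hSL hS => ?_
  have h1 : S ⊆ (hfin.toFinset.image f) ∪ T := by
    intro l hl
    obtain ⟨x, hx, hxl⟩ := hS l hl
    rw [Finset.mem_union, Finset.mem_image]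
    rcases hlev l (hSL hl) x hx hxl with ⟨y, hy, hyl⟩ | h
    · exact Or.inl ⟨y, hfin.mem_toFinset.2 ⟨hy, by rw [hyl]; exact hSL hl⟩, hyl⟩
    · exact Or.inr h
  calc S.card ≤ ((hfin.toFinset.image f) ∪ T).card := Finset.card_le_card h1
    _ ≤ (hfin.toFinset.image f).card + T.card := Finset.card_union_le _ _
    _ ≤ hfin.toFinset.card + T.card := Nat.add_le_add_right Finset.card_image_le _
    _ = {x | x ∈ K ∧ f x ∈ L}.ncard + T.card := by rw [Set.ncard_eq_toFinset_card _ hfin]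
    _ ≤ n := hn

/-- **cells and faces**: every level which is met by `F` is met on the skeleton, which is a finite
union of edges with at most `cr e` crossing points -/
theorem LOsc.of_skel {ε : Type*} {A : Finset ε} {e : ε → Set X} {cr : ε → ℕ}
    (hF : IsPreconnected F) (hf : ContinuousOn f F)
    (hlev : ∀ l ∈ L, ∀ x ∈ F, f x = l → ∃ a ∈ A, ∃ y ∈ e a, f y = l)
    (hfin : ∀ a ∈ A, {x | x ∈ e a ∧ f x ∈ L}.Finite)
    (hcr : ∀ a ∈ A, {x | x ∈ e a ∧ f x ∈ L}.ncard ≤ cr a) : LOsc L f F (∑ a ∈ A, cr a) := by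
  have e1 : {x | x ∈ (⋃ a ∈ A, e a) ∧ f x ∈ L} = ⋃ a ∈ A, {x | x ∈ e a ∧ f x ∈ L} := by
    ext x
    simp only [mem_iUnion, mem_ofPred_eq, exists_prop]
    exact ⟨fun ⟨⟨a, ha, hx⟩, h⟩ => ⟨a, ha, hx, h⟩, fun ⟨a, ha, hx, h⟩ => ⟨⟨a, ha, hx⟩, h⟩⟩
  have h1 : {x | x ∈ (⋃ a ∈ A, e a) ∧ f x ∈ L}.Finite := by
    rw [e1]
    exact A.finite_toSet.biUnion hfin
  refine LOsc.of_levels (K := ⋃ a ∈ A, e a) (T := ∅) hF hf (fun l hl x hx hxl => ?_) h1 ?_
  · obtain ⟨a, ha, y, hy, hyl⟩ := hlev l hl x hx hxl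
    exact Or.inl ⟨y, mem_iUnion₂.2 ⟨a, ha, hy⟩, hyl⟩
  · rw [Finset.card_empty, add_zero, e1]
    refine (Finset.set_ncard_biUnion_le A _).trans (Finset.sum_le_sum hcr)

end conn

section pat

variable {E : Type*} [NormedAddCommGroup E] [NormedSpace ℝ E]

/-- every level which is met by an E-face is met in two points of the boundary -/
theorem exists_two_of_facePat {κ : Type*} {C B : Set E} {h : E → κ → ℝ} {Lv : κ → Set ℝ}
    {A : Type*} {S : A → Set E} {cd : A → κ} {lev : A → ℝ} {col : A → Bool}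
    (H : FacePat C B h Lv S cd lev col) {j : κ} {l : ℝ} (hl : l ∈ Lv j) {x : E} (hx : x ∈ C)
    (hxl : h x j = l) : ∃ p ∈ B, ∃ q ∈ B, p ≠ q ∧ h p j = l ∧ h q j = l := by
  have h1 : x ∈ ⋃ (α) (_ : cd α = j ∧ lev α = l), S α := by
    rw [H.eq j l hl]; exact ⟨hx, hxl⟩
  obtain ⟨α, hα, hxα⟩ := mem_iUnion₂.1 h1
  have hsub : ∀ y ∈ S α, h y j = l := by
    intro y hy
    have h2 : y ∈ ⋃ (α) (_ : cd α = j ∧ lev α = l), S α := mem_iUnion₂.2 ⟨α, hα, hy⟩
    rw [H.eq j l hl] at h2
    exact h2.2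
  obtain ⟨p, q, hpq, hne⟩ := GB200.exists_pair_of_conSphere (H.pat.hS α).conSphere
  have hp : p ∈ S α ∩ B := by rw [hne]; exact Or.inl rfl
  have hq : q ∈ S α ∩ B := by rw [hne]; exact Or.inr rfl
  exact ⟨p, hp.2, q, hq.2, hpq, hsub p hp.1, hsub q hq.1⟩

/-- **E-faces**: half of the number of crossing points on the boundary -/
theorem LOsc.of_facePat {κ : Type*} {C B : Set E} {h : E → κ → ℝ} {Lv : κ → Set ℝ}
    {A : Type*} {S : A → Set E} {cd : A → κ} {lev : A → ℝ} {col : A → Bool}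
    (H : FacePat C B h Lv S cd lev col) {j : κ} {L : Finset ℝ} (hL : ∀ l ∈ L, l ∈ Lv j)
    (hc : ContinuousOn (fun x => h x j) C) (hfin : {x | x ∈ B ∧ h x j ∈ L}.Finite) :
    LOsc L (fun x => h x j) C ({x | x ∈ B ∧ h x j ∈ L}.ncard / 2) := by
  classical
  refine LOsc.of_met ?_ hc fun T hTL hT => ?_
  · obtain ⟨-, φ, -⟩ := H.pat.hC
    have h1 : IsPreconnected (φ.symm.toFun '' closedBall (0 : Fin 2 → ℝ) 1) :=
      (convex_closedBall _ _).isPreconnected.image _ φ.symm.cont
    rwa [φ.symm.image_eq] at h1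
  · have h2 : ∀ l ∈ T, ∃ p ∈ B, ∃ q ∈ B, p ≠ q ∧ h p j = l ∧ h q j = l := by
      intro l hl
      obtain ⟨x, hx, hxl⟩ := hT l hl
      exact exists_two_of_facePat H (hL l (hTL hl)) hx hxl
    choose! p hp q hq hpq hpl hql using h2
    have h3 : (T.image p ∪ T.image q) ⊆ hfin.toFinset := by
      intro x hx
      rw [Finset.mem_union, Finset.mem_image, Finset.mem_image] at hx
      rw [hfin.mem_toFinset]
      rcases hx with ⟨l, hl, rfl⟩ | ⟨l, hl, rfl⟩
      · exact ⟨hp l hl, by rw [hpl l hl]; exact hTL hl⟩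
      · exact ⟨hq l hl, by rw [hql l hl]; exact hTL hl⟩
    have h4 : Disjoint (T.image p) (T.image q) := by
      rw [Finset.disjoint_left]
      intro x hx hx'
      rw [Finset.mem_image] at hx hx'
      obtain ⟨l, hl, rfl⟩ := hx
      obtain ⟨l', hl', he⟩ := hx'
      have : l' = l := by rw [← hql l' hl', he, hpl l hl]
      subst this
      exact hpq l' hl' he.symm
    have h5 : (T.image p).card = T.card := Finset.card_image_of_injOn fun l hl l' hl' he => by
      rw [← hpl l hl, ← hpl l' hl']; exact congrArg (fun x => h x j) he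
    have h6 : (T.image q).card = T.card := Finset.card_image_of_injOn fun l hl l' hl' he => by
      rw [← hql l hl, ← hql l' hl']; exact congrArg (fun x => h x j) he
    have h7 := Finset.card_le_card h3
    rw [Finset.card_union_of_disjoint h4, h5, h6, ← Set.ncard_eq_toFinset_card _ hfin] at h7
    omega

end pat

/-- **the skeleton of a cell is connected**: `S = ⋃ F k` is connected (the boundary of the cell),
two faces meet only in their boundaries `B k`, which are connected -/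
theorem isPreconnected_skel {X κ : Type*} [TopologicalSpace X] [Finite κ] {F B : κ → Set X}
    (hF : ∀ k, IsClosed (F k)) (hB : ∀ k, IsPreconnected (B k))
    (hBF : ∀ k, B k ⊆ F k) (hBne : ∀ k, (B k).Nonempty)
    (hmeet : ∀ k l, k ≠ l → F k ∩ F l ⊆ B k) (hS : IsPreconnected (⋃ k, F k)) :
    IsPreconnected (⋃ k, B k) := by
  rw [isPreconnected_closed_iff]
  intro U V hU hV hcov hUne hVne
  have h1 : ∀ k, (B k ∩ U).Nonempty → (B k ∩ V).Nonempty → ((⋃ k, B k) ∩ (U ∩ V)).Nonempty := by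
    intro k hk hk'
    obtain ⟨x, hx, hx'⟩ := (isPreconnected_closed_iff.1 (hB k)) U V hU hV
      ((subset_iUnion B k).trans hcov) hk hk'
    exact ⟨x, mem_iUnion.2 ⟨k, hx⟩, hx'⟩
  by_contra hcon
  have h2 : ∀ k, B k ⊆ U ∨ B k ⊆ V := by
    intro k
    by_cases hk : (B k ∩ U).Nonempty
    · left
      intro x hx
      rcases hcov (mem_iUnion.2 ⟨k, hx⟩) with h | h
      · exact h
      · exact absurd (h1 k hk ⟨x, hx, h⟩) hcon
    · right
      intro x hx
      rcases hcov (mem_iUnion.2 ⟨k, hx⟩) with h | h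
      · exact absurd ⟨x, hx, h⟩ hk
      · exact h
  set PU : Set X := ⋃ (k) (_ : B k ⊆ U), F k with hPU
  set PV : Set X := ⋃ (k) (_ : B k ⊆ V), F k with hPV
  have cU : IsClosed PU := isClosed_iUnion_of_finite fun k => isClosed_iUnion_of_finite fun _ => hF k
  have cV : IsClosed PV := isClosed_iUnion_of_finite fun k => isClosed_iUnion_of_finite fun _ => hF k
  have hc : (⋃ k, F k) ⊆ PU ∪ PV := by
    intro x hx
    obtain ⟨k, hk⟩ := mem_iUnion.1 hx
    rcases h2 k with h | h
    · exact Or.inl (mem_iUnion₂.2 ⟨k, h, hk⟩)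
    · exact Or.inr (mem_iUnion₂.2 ⟨k, h, hk⟩)
  obtain ⟨x, hx, hxU⟩ := hUne
  obtain ⟨k, hxk⟩ := mem_iUnion.1 hx
  obtain ⟨y, hy, hyV⟩ := hVne
  obtain ⟨l, hyl⟩ := mem_iUnion.1 hy
  have hkU : B k ⊆ U := (h2 k).resolve_right fun h => hcon ⟨x, hx, hxU, h hxk⟩
  have hlV : B l ⊆ V := (h2 l).resolve_left fun h => hcon ⟨y, hy, h hyl, hyV⟩
  obtain ⟨z, -, hzU, hzV⟩ := (isPreconnected_closed_iff.1 hS) PU PV cU cV hc
    ⟨x, mem_iUnion.2 ⟨k, hBF k hxk⟩, mem_iUnion₂.2 ⟨k, hkU, hBF k hxk⟩⟩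
    ⟨y, mem_iUnion.2 ⟨l, hBF l hyl⟩, mem_iUnion₂.2 ⟨l, hlV, hBF l hyl⟩⟩
  obtain ⟨a, ha, hza⟩ := mem_iUnion₂.1 hzU
  obtain ⟨b, hb, hzb⟩ := mem_iUnion₂.1 hzV
  by_cases hab : a = b
  · subst hab
    obtain ⟨w, hw⟩ := hBne a
    exact hcon ⟨w, mem_iUnion.2 ⟨a, hw⟩, ha hw, hb hw⟩
  · have hz1 := hmeet a b hab ⟨hza, hzb⟩
    have hz2 := hmeet b a (Ne.symm hab) ⟨hzb, hza⟩
    exact hcon ⟨z, mem_iUnion.2 ⟨a, hz1⟩, ha hz1, hb hz2⟩

section stair

/-- the part of `[s, t]` outside the level zone `[a₀, a₁]` -/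
def outl (a₀ a₁ s t : ℝ) : ℝ := max 0 (min t a₀ - s) + max 0 (t - max s a₁)

theorem outl_nonneg (a₀ a₁ s t : ℝ) : 0 ≤ outl a₀ a₁ s t :=
  add_nonneg (le_max_left _ _) (le_max_left _ _)

/-- **from levels to the oscillation**: `S` is increasing, it moves points by at most `D`, and it
grows by at most `om` between consecutive levels -/
theorem stair_sub_le {S : ℝ → ℝ} (hS : Monotone S) {D : ℝ} (hD : ∀ t, |S t - t| ≤ D) {N : ℕ}
    {a : ℕ → ℝ} (hN : 0 < N) (ha : ∀ i j, i < j → j < N → a i < a j) {om : ℝ} (hom0 : 0 ≤ om)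
    (hom : ∀ k, k + 1 < N → S (a (k + 1)) - S (a k) ≤ om) {s t : ℝ} (hst : s ≤ t) {n : ℕ}
    (hn : (((Finset.range N).image a).filter fun l => s < l ∧ l ≤ t).card ≤ n) :
    S t - S s ≤ om * (n + 1) + 4 * D + outl (a 0) (a (N - 1)) s t := by
  classical
  have hD0 : 0 ≤ D := (abs_nonneg _).trans (hD 0)
  have hinj : ∀ i < N, ∀ j < N, a i = a j → i = j := by
    intro i hi j hj hij
    rcases lt_trichotomy i j with h | h | h
    · exact absurd hij (ha i j h hj).ne
    · exact h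
    · exact absurd hij (ha j i h hi).ne'
  have hmono : ∀ i j, i ≤ j → j < N → a i ≤ a j := fun i j hij hj => by
    rcases hij.lt_or_eq with h | h
    · exact (ha i j h hj).le
    · rw [h]
  -- growth over several levels
  have hgrow : ∀ i j, i ≤ j → j < N → S (a j) - S (a i) ≤ om * (j - i : ℕ) := by
    intro i j hij
    induction j, hij using Nat.le_induction with
    | base => intro _; simp
    | succ j hij ih =>
      intro hj
      have h1 := ih (by omega)
      have h2 := hom j hj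
      have h3 : ((j + 1 - i : ℕ) : ℝ) = (j - i : ℕ) + 1 := by
        rw [Nat.succ_sub hij]; push_cast; ring
      rw [h3]
      linarith
  -- counting
  have hcount : ∀ i j, i ≤ j → j < N → s < a i → a j ≤ t → j - i + 1 ≤ n := by
    intro i j hij hj hi hjt
    refine le_trans ?_ hn
    have h1 : (Finset.Icc i j).image a ⊆
        ((Finset.range N).image a).filter fun l => s < l ∧ l ≤ t := by
      intro l hl
      rw [Finset.mem_image] at hl
      obtain ⟨k, hk, rfl⟩ := hl
      rw [Finset.mem_Icc] at hk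
      rw [Finset.mem_filter, Finset.mem_image]
      exact ⟨⟨k, Finset.mem_range.2 (by omega), rfl⟩, lt_of_lt_of_le hi (hmono i k hk.1 (by omega)),
        (hmono k j hk.2 hj).trans hjt⟩
    have h2 := Finset.card_le_card h1
    rw [Finset.card_image_of_injOn (fun x hx y hy hxy => by
      rw [Finset.coe_Icc, mem_Icc] at hx hy
      exact hinj x (by omega) y (by omega) hxy), Nat.card_Icc] at h2
    omega
  have b := fun r => abs_le.1 (hD r)
  have hn0 : (0:ℝ) ≤ n := Nat.cast_nonneg n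
  have hon : 0 ≤ om * (n:ℝ) := mul_nonneg hom0 hn0
  have hlast : N - 1 < N := by omega
  -- `t` below the first level
  by_cases ht0 : t < a 0
  · have h1 : max 0 (min t (a 0) - s) = t - s := by
      rw [min_eq_left ht0.le, max_eq_right (by linarith)]
    have h2 : 0 ≤ max 0 (t - max s (a (N - 1))) := le_max_left _ _
    unfold outl
    have := (b t).2
    have := (b s).1
    nlinarith
  -- `s` above the last level
  by_cases hs1 : a (N - 1) ≤ s
  · have h1 : max 0 (t - max s (a (N - 1))) = t - s := by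
      rw [max_eq_left hs1, max_eq_right (by linarith)]
    have h2 : 0 ≤ max 0 (min t (a 0) - s) := le_max_left _ _
    unfold outl
    have := (b t).2
    have := (b s).1
    nlinarith
  push Not at ht0 hs1
  -- the last level `≤ t`
  have hK : ∃ k, k < N ∧ a k ≤ t ∧ (k + 1 < N → t < a (k + 1)) := by
    let k := Nat.findGreatest (fun k => k < N ∧ a k ≤ t) N
    have hk : k < N ∧ a k ≤ t :=
      Nat.findGreatest_spec (P := fun k => k < N ∧ a k ≤ t) (Nat.zero_le N) ⟨hN, ht0⟩
    refine ⟨k, hk.1, hk.2, fun h => ?_⟩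
    by_contra hcon
    have h3 := Nat.le_findGreatest (P := fun k => k < N ∧ a k ≤ t) h.le ⟨h, not_lt.1 hcon⟩
    have : k + 1 ≤ k := h3
    omega
  -- the first level `> s`
  have hJ : ∃ j, j < N ∧ s < a j ∧ (0 < j → a (j - 1) ≤ s) := by
    have hex : ∃ j, j < N ∧ s < a j := ⟨N - 1, hlast, hs1⟩
    refine ⟨Nat.find hex, (Nat.find_spec hex).1, (Nat.find_spec hex).2, fun h => ?_⟩
    have h3 := Nat.find_min hex (m := Nat.find hex - 1) (by omega)
    by_contra hcon
    exact h3 ⟨by have := (Nat.find_spec hex).1; omega, not_le.1 hcon⟩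
  obtain ⟨k, hkN, hkt, hk1⟩ := hK
  obtain ⟨j, hjN, hjs, hj1⟩ := hJ
  -- upper bound for `S t`
  have ht2 : S t ≤ S (a k) + (if k + 1 < N then om else 0) +
      (2 * D + max 0 (t - max s (a (N - 1)))) := by
    by_cases h : k + 1 < N
    · rw [if_pos h]
      have h1 := hS (hk1 h).le
      have h2 := hom k h
      have h3 : 0 ≤ max 0 (t - max s (a (N - 1))) := le_max_left _ _
      linarith
    · rw [if_neg h]
      have e : k = N - 1 := by omega
      have h1 : max 0 (t - max s (a (N - 1))) = t - a (N - 1) := by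
        rw [max_eq_right hs1.le, max_eq_right (by rw [← e]; linarith)]
      rw [h1, ← e]
      linarith [(b t).2, (b (a k)).1]
  have hs2 : S (a j) - (if 0 < j then om else 0) - (2 * D + max 0 (min t (a 0) - s)) ≤ S s := by
    by_cases h : 0 < j
    · rw [if_pos h]
      have h1 := hS (hj1 h)
      have h2 := hom (j - 1) (by omega)
      rw [Nat.sub_add_cancel h] at h2
      have h3 : 0 ≤ max 0 (min t (a 0) - s) := le_max_left _ _
      linarith
    · rw [if_neg h]
      obtain rfl : j = 0 := by omega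
      have h1 : max 0 (min t (a 0) - s) = a 0 - s := by
        rw [min_eq_right ht0, max_eq_right (by linarith)]
      rw [h1]
      linarith [(b (a 0)).2, (b s).1]
  unfold outl
  rcases le_or_gt j k with hjk | hjk
  · have h1 := hgrow j k hjk hkN
    have h2 := hcount j k hjk hkN hjs hkt
    have h3 : om * ((k - j : ℕ) : ℝ) ≤ om * (n - 1) := by
      refine mul_le_mul_of_nonneg_left ?_ hom0
      have : ((k - j : ℕ) : ℝ) + 1 ≤ n := by exact_mod_cast h2
      linarith
    have h4 : (if k + 1 < N then om else 0) ≤ om := by split_ifs <;> linarith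
    have h5 : (if 0 < j then om else 0) ≤ om := by split_ifs <;> linarith
    nlinarith
  · -- no level between `s` and `t`
    have e : j = k + 1 := by
      by_contra hne
      have h1 : a (j - 1) ≤ s := hj1 (by omega)
      have h2 : t < a (k + 1) := hk1 (by omega)
      have h3 : a (k + 1) ≤ a (j - 1) := hmono _ _ (by omega) (by omega)
      linarith
    have h1 := hS (hk1 (by omega)).le
    have h2 := hS (hj1 (by omega))
    have h3 := hom k (by omega)
    rw [e] at h2
    simp only [Nat.add_sub_cancel] at h2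
    have h4 : 0 ≤ max 0 (min t (a 0) - s) := le_max_left _ _
    have h5 : 0 ≤ max 0 (t - max s (a (N - 1))) := le_max_left _ _
    nlinarith

variable {X : Type*} {f : X → ℝ} {F : Set X} {n : ℕ}

/-- **[OSC-E]**, general form -/
theorem LOsc.abs_sub_le {S : ℝ → ℝ} (hS : Monotone S) {D : ℝ} (hD : ∀ t, |S t - t| ≤ D) {N : ℕ}
    {a : ℕ → ℝ} (hN : 0 < N) (ha : ∀ i j, i < j → j < N → a i < a j) {om : ℝ} (hom0 : 0 ≤ om)
    (hom : ∀ k, k + 1 < N → S (a (k + 1)) - S (a k) ≤ om)
    (H : LOsc ((Finset.range N).image a) f F n) {R : ℝ}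
    (hR : ∀ x ∈ F, ∀ y ∈ F, f x ≤ f y → outl (a 0) (a (N - 1)) (f x) (f y) ≤ R) :
    ∀ x ∈ F, ∀ y ∈ F, |S (f x) - S (f y)| ≤ om * (n + 1) + 4 * D + R := by
  intro x hx y hy
  rcases le_total (f x) (f y) with h | h
  · rw [abs_sub_comm, abs_of_nonneg (sub_nonneg.2 (hS h))]
    exact (stair_sub_le hS hD hN ha hom0 hom h (H x hx y hy)).trans (by linarith [hR x hx y hy h])
  · rw [abs_of_nonneg (sub_nonneg.2 (hS h))]
    exact (stair_sub_le hS hD hN ha hom0 hom h (H y hy x hx)).trans (by linarith [hR y hy x hx h])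

/-- the version without `S`: the gaps of the levels are at most `gap`, and `g` is within `D` of
`f` (fades, clips, all coordinates: no structure of `S` is needed) -/
theorem LOsc.abs_sub_le_near {g : X → ℝ} {D : ℝ} (hD : ∀ x ∈ F, |g x - f x| ≤ D) {N : ℕ}
    {a : ℕ → ℝ} (hN : 0 < N) (ha : ∀ i j, i < j → j < N → a i < a j) {gap : ℝ} (hg0 : 0 ≤ gap)
    (hgap : ∀ k, k + 1 < N → a (k + 1) - a k ≤ gap)
    (H : LOsc ((Finset.range N).image a) f F n) {R : ℝ}
    (hR : ∀ x ∈ F, ∀ y ∈ F, f x ≤ f y → outl (a 0) (a (N - 1)) (f x) (f y) ≤ R) :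
    ∀ x ∈ F, ∀ y ∈ F, |g x - g y| ≤ gap * (n + 1) + R + 2 * D := by
  intro x hx y hy
  have h1 := LOsc.abs_sub_le (S := id) monotone_id (D := 0) (fun t => by simp) hN ha hg0 hgap H hR
    x hx y hy
  have h2 := abs_le.1 (hD x hx)
  have h3 := abs_le.1 (hD y hy)
  have h4 := abs_le.1 h1
  simp only [id] at h4
  rw [abs_le]
  constructor <;> linarith [h2.1, h2.2, h3.1, h3.2, h4.1, h4.2]

open P073.H236 in
/-- the staircase of `H236` between consecutive levels -/
theorem sm_step {N : ℕ} {a : ℕ → ℝ} {c al be t₀ om e : ℝ} (h : Lvs N a c al be) {k : ℕ}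
    (hk : k + 1 < N) :
    sm N a c al be t₀ om e (a (k + 1)) - sm N a c al be t₀ om e (a k) = om := by
  have hc := h.c0
  rw [sm_flat h hk (by simp [hc.le]), sm_flat h (by omega : k < N) (by simp [hc.le])]
  push_cast
  ring

open P073.H236 in
/-- **[OSC-E]** for the staircase: `|S (f x) - S (f y)| ≤ om (n + 1) + 4 D + R` -/
theorem LOsc.abs_sm_sub_le {N : ℕ} {a : ℕ → ℝ} {c al be t₀ om e : ℝ} (h : Lvs N a c al be)
    (h' : Tgt N al be t₀ om e) {D : ℝ}
    (hD : ∀ t, |sm N a c al be t₀ om e t - t| ≤ D) (H : LOsc h.L f F n) {R : ℝ}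
    (hR : ∀ x ∈ F, ∀ y ∈ F, f x ≤ f y → outl (a 0) (a (N - 1)) (f x) (f y) ≤ R) :
    ∀ x ∈ F, ∀ y ∈ F, |sm N a c al be t₀ om e (f x) - sm N a c al be t₀ om e (f y)| ≤
      om * (n + 1) + 4 * D + R :=
  LOsc.abs_sub_le (sm_strictMono h h').monotone hD h.pos (fun _ _ hij hj => h.strictMono hij hj)
    (by linarith [h'.e0, h'.eo]) (fun _ hk => (sm_step h hk).le) (n := n) H hR

end stair

end P073.H605
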